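import Vale.Agent.P251.Z.CompA
import Vale.Agent.P257.H702.GenK
import Vale.Agent.P257.H314.Assemble

/-!
# P261 (helper321): `V(n)` is acyclic for the Morava `K`-theory of height `n`

* `stow_cyc` : a Smith-Toda tower has cyclic `MU`-homology;
* `acyclic_of_cyc` : if `MU_* V = MU_* / I_{n+1}` then `K(n) ⊗ V = 0`.
-/

open CategoryTheory MonoidalCategory Limits Pretriangulated MonObj

set_option linter.unusedSectionVars false

universe v u

namespace Vale.Agent.P261.H321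

open Vale.Agent.P251 Vale.Agent.P251.T Vale.Agent.P251.M Vale.Agent.P251.S Vale.Agent.P251.F
  Vale.Agent.P257.H314 Vale.Agent.P257.H702
open Vale.Agent.P251.M.EvenSpheres

section coh

variable {T : Type u} [Category.{v} T] [Preadditive T] [HasZeroObject T]
    [HasShift T ℤ] [∀ n : ℤ, (shiftFunctor T n).Additive] [Pretriangulated T]
    [MonoidalCategory T] [SymmetricCategory T] [TensorTriangulated T] [MonoidalClosed T]
    [HasCoproducts.{0} T]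

/-- `(X ⊗ Y) ⊗ V ≅ (X ⊗ V) ⊗ Y` -/
def sw (X Y V : T) : (X ⊗ Y) ⊗ V ≅ (X ⊗ V) ⊗ Y :=
  α_ X Y V ≪≫ whiskerLeftIso X (β_ Y V) ≪≫ (α_ X V Y).symm

theorem hcls_sw {A B X Y V : T} (i : 𝟙_ T ⟶ V) (a : A ⟶ X) (b : B ⟶ Y) :
    hcls i (a ⊗ₘ b) ≫ (sw X Y V).hom = (hcls i a ⊗ₘ b) := by
  have h1 : (Y ◁ i) ≫ (β_ Y V).hom = (β_ Y (𝟙_ T)).hom ≫ i ▷ Y :=
    BraidedCategory.braiding_naturality_right Y i
  unfold hcls sw
  simp only [Category.assoc, Iso.trans_hom, whiskerLeftIso_hom, Iso.symm_hom]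
  rw [associator_naturality_right_assoc, ← whiskerLeft_comp_assoc, h1,
    MonoidalCategory.whiskerLeft_comp, Category.assoc, associator_inv_naturality_middle]
  rw [tensorHom_def, tensorHom_def, comp_whiskerRight, comp_whiskerRight]
  simp only [Category.assoc]
  have h2 : (ρ_ (X ⊗ Y)).inv ≫ (α_ X Y (𝟙_ T)).hom ≫ X ◁ (β_ Y (𝟙_ T)).hom ≫
      (α_ X (𝟙_ T) Y).inv = (ρ_ X).inv ▷ Y := by
    simp [braiding_tensorUnit_right]
  rw [reassoc_of% h2, whisker_exchange_assoc, whisker_exchange]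

variable {D : I.MUData T} {p h : ℕ} {V : T} {i : 𝟙_ T ⟶ V}

/-- `π_* R ⟶ π_* (R ⊗ V)` is surjective -/
theorem cyc_surj (H : Cyc D p h i) {A : T} (hA : IsSphere A) (g : A ⟶ D.R ⊗ V) :
    ∃ a : A ⟶ D.R, g = hcls i a := by
  obtain ⟨k, ⟨θ⟩⟩ := hA
  rcases Int.even_or_odd' k with ⟨w, rfl | rfl⟩
  · obtain ⟨z, hz⟩ := H.surj 0 w ((sI T w).hom ≫ θ.inv ≫ g ≫ (λ_ D.R).inv ▷ V)
    refine ⟨θ.hom ≫ (sI T w).inv ≫ D.evw 0 w z ≫ (λ_ D.R).hom, ?_⟩
    have h1 : g = θ.hom ≫ (sI T w).inv ≫ ((sI T w).hom ≫ θ.inv ≫ g ≫ (λ_ D.R).inv ▷ V) ≫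
        (λ_ D.R).hom ▷ V := by
      simp
    rw [h1, hz, redC_app, hcls]
    simp only [Category.assoc]
    congr 3
    rw [whisker_exchange]
    simp
  · refine ⟨0, ?_⟩
    rw [hcls_zero]
    have h1 := H.odd 0 w (θ.inv ≫ g ≫ (λ_ D.R).inv ▷ V)
    have h2 : g = θ.hom ≫ (θ.inv ≫ g ≫ (λ_ D.R).inv ▷ V) ≫ (λ_ D.R).hom ▷ V := by
      simp
    rw [h2, h1, zero_comp, comp_zero]

/-- `v_h` acts by zero -/
theorem cyc_vel [Fact p.Prime] (H : Cyc D p (h + 1) i) : hcls i (D.vel p h) = 0 := by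
  have h1 := (H.ker 0 _ (vw p h 0)).2 (by
    change MvPolynomial.C (Laz.v p h) ∈ _
    refine Ideal.mem_map_of_mem _ ?_
    rw [Laz.I, Ih]
    exact Ideal.subset_span ⟨h, Nat.lt_succ_self h, rfl⟩)
  rw [← evw_vw D p h, hcls, Category.assoc]
  have h2 : I.amOne D.R ≫ (ρ_ D.R).inv ≫ D.R ◁ i =
      (redC i).app (Am D.R 1) ≫ (I.amOne D.R ▷ V) := by
    rw [redC_app, Category.assoc, whisker_exchange, rightUnitor_inv_naturality_assoc]
  rw [h2, reassoc_of% h1, zero_comp]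

theorem hcls_vs [Fact p.Prime] (H : Cyc D p (h + 1) i) : hcls i (D.vs p h) = 0 := by
  have h1 : hcls i (D.vel p h ⊗ₘ (stdEven T).inPS (-((p ^ h : ℤ) - 1))) = 0 := by
    rw [← cancel_mono (sw D.R (stdEven T).PS V).hom, hcls_sw, cyc_vel H]
    simp
  rw [I.MUData.vs, sharp_eq_unitIso, hcls_comp, h1, comp_zero]

/-- the multiplication by `v_h` and the unit of `V` -/
theorem smul_unit [Fact p.Prime] (H : Cyc D p (h + 1) i) :
    (ModStr.self D.P).smul (D.vs p h) ≫ (ρ_ D.P).inv ≫ D.P ◁ i = 0 := by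
  have h1 := hcls_vs H
  rw [ModStr.self_smul_eq]
  have h2 : (D.P ◁ D.vs p h) ≫ μ[D.P] ≫ (ρ_ D.P).inv ≫ D.P ◁ i =
      D.P ◁ (hcls i (D.vs p h)) ≫ (α_ D.P D.P V).inv ≫ μ[D.P] ▷ V := by
    unfold hcls
    simp only [MonoidalCategory.whiskerLeft_comp, Category.assoc]
    rw [associator_inv_naturality_right_assoc, whisker_exchange,
      rightUnitor_inv_naturality_assoc]
    simp
  rw [Category.assoc, Category.assoc, h2, h1]
  simp

end coh

variable {T : Type u} [Category.{v} T] [Preadditive T] [HasZeroObject T]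
    [HasShift T ℤ] [∀ n : ℤ, (shiftFunctor T n).Additive] [Pretriangulated T] [IsTriangulated T]
    [MonoidalCategory T] [SymmetricCategory T] [TensorTriangulated T] [MonoidalClosed T]
    [HasCoproducts.{0} T] [HasProducts.{0} T] [StableCat T]
  {D : I.MUData T} {p h : ℕ} {V : T} {i : 𝟙_ T ⟶ V}

/-- `π_* P ⟶ π_* (P ⊗ V)` is surjective -/
theorem cyc_surjP (H : Cyc D p h i) {A : T} (hA : IsSphere A) (y : A ⟶ D.P ⊗ V) :
    ∃ a : A ⟶ D.P, y = hcls i a := by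
  obtain ⟨s, g, hg⟩ := compact_sumL (D.R ⊗ V) (fun n : ℤ => (stdEven T).S n) hA
    (y ≫ (sw D.R (stdEven T).PS V).hom)
  have key : ∀ m : ℤ, ∃ a : A ⟶ D.P, (hcls i a) ≫ (sw D.R (stdEven T).PS V).hom =
      g m ≫ (D.R ⊗ V) ◁ Sigma.ι (fun n : ℤ => (stdEven T).S n) m := by
    intro m
    obtain ⟨j, ⟨e⟩⟩ := hA
    -- `A ≅ A' ⊗ S_m`
    let A' : T := (𝟙_ T)⟦j - 2 * m⟧
    let θ : A ≅ A' ⊗ (stdEven T).S m :=
      e ≪≫ ((shiftFunctorAdd' T (j - 2 * m) (2 * m) j (by ring)).app _) ≪≫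
        (tensorSph _ _).symm ≪≫ whiskerLeftIso _ (sI T _).symm
    obtain ⟨g', hg'⟩ := whiskerRight_surj ((stdEven T).S m) (θ.inv ≫ g m)
    obtain ⟨a', ha'⟩ := cyc_surj H (A := A') ⟨_, ⟨Iso.refl _⟩⟩ g'
    refine ⟨θ.hom ≫ (a' ⊗ₘ (stdEven T).inPS m), ?_⟩
    rw [hcls_comp, Category.assoc, hcls_sw, ← ha', tensorHom_def, hg']
    simp only [Category.assoc, Iso.hom_inv_id_assoc]
    rfl
  choose a ha using key
  refine ⟨∑ m ∈ s, a m, ?_⟩
  have h1 : hcls i (∑ m ∈ s, a m) = ∑ m ∈ s, hcls i (a m) := by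
    unfold hcls
    rw [Preadditive.sum_comp]
  refine (cancel_mono (sw D.R (stdEven T).PS V).hom).1 (hg.trans ?_)
  rw [h1]
  refine Eq.trans ?_ (Preadditive.sum_comp _ _ _).symm
  exact Finset.sum_congr rfl fun m _ => (ha m).symm

/-- `v_h` is zero on the homotopy of `P ⊗ V` -/
theorem ghost_v [Fact p.Prime] (H : Cyc D p (h + 1) i) {A : T} (hA : IsSphere A)
    (y : A ⟶ D.P ⊗ V) : y ≫ ((ModStr.self D.P).smul (D.vs p h) ▷ V) = 0 := by
  obtain ⟨a, rfl⟩ := cyc_surjP H hA y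
  rw [hcls, Category.assoc, Category.assoc, whisker_exchange]
  have h1 : (ρ_ D.P).inv ≫ ((ModStr.self D.P).smul (D.vs p h) ▷ (𝟙_ T)) ≫ D.P ◁ i =
      (ModStr.self D.P).smul (D.vs p h) ≫ (ρ_ D.P).inv ≫ D.P ◁ i := by
    rw [rightUnitor_inv_naturality_assoc]
  rw [h1, smul_unit H, comp_zero]

/-- `P[1/v_h] ⊗ V = 0` -/
theorem isZero_Tl [Fact p.Prime] (H : Cyc D p (h + 1) i)
    (Z : KosData D.P (p : ℤ) h (D.vs p)) : IsZero (Z.Tl ⊗ V) := by
  let U := Z.isTel.tel.tensR V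
  refine StableCat.generator _ fun k w => ?_
  obtain ⟨n, a, ha⟩ := U.exists_factor
    (fun _ X f => compact_sum X (isSphere_one_shift k) f) w
  have h1 : a ≫ ((ModStr.self D.P).smul (D.vs p h) ▷ V) = 0 :=
    ghost_v H (isSphere_one_shift k) a
  rw [← ha, ← U.w n]
  exact (Category.assoc _ _ _).symm.trans (by rw [h1]; exact zero_comp)

variable {F : I.SpaceFunctor T} {e : F.S.obj CCF ≅ (stdEven T).L}

/-- **If `MU_* V = MU_* / I_{n+1}` then `K(n) ⊗ V = 0`.** -/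
theorem acyclic_of_cyc (hD : I.MUUniv e D) [Fact p.Prime] {n : ℕ} (hn : 1 ≤ n)
    (H : Cyc D p (n + 1) i) {K : T} [MonObj K] [IsCommMonObj K] (o : Z.Oriented F K)
    (hK : Z.IsMoravaPos F p n o) : Acyclic K V := by
  obtain ⟨Y⟩ := exists_kosData D.P (p : ℤ) n (D.vs p)
  refine Z.acyclic_of_kos hD hn o hK Y ?_
  have h1 : IsZero (Y.kos n ⊗ (Y.Tl ⊗ V)) :=
    Functor.map_isZero (tensorLeft (Y.kos n)) (isZero_Tl H Y)
  exact IsZero.of_iso h1 (α_ _ _ _)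

/-- Smith-Toda towers have cyclic `MU`-homology. -/
theorem stow_cyc [Fact p.Prime] (hp : p ≠ 2) (H : STow D p h i) : Cyc D p h i := by
  induction H with
  | one hC => exact cyc_modP D hp hC
  | succ H x hx f hf j δ hΔ ih => exact ih.step rfl hx hf hΔ

end Vale.Agent.P261.H321
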