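import Mathlib.NumberTheory.Padics.RingHoms
import Mathlib.Analysis.SpecificLimits.Basic
import Mathlib.Analysis.Normed.Group.InfiniteSum
import Mathlib.RingTheory.Finiteness.Basic
import Mathlib.RingTheory.Noetherian.Basic

/-!
# P261 (helper321): algebra of derived `p`-complete abelian groups

* `PComp p A` : the map `x ↦ (x_i - p x_{i+1})` on the sequences in `A` is bijective;
* `PComp.existsUnique` : for every `a` there is exactly one additive map `ℤ_p → A`, `1 ↦ a`;
* `PComp.module`, `PComp.module_unique` : `A` has exactly one structure of `ℤ_p`-module;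
* `PComp.finite_of_reps` : it is finitely generated if `A / p` is finite;
* `finite_of_kills` : a finitely generated `ℤ_p`-module killed by `p` is finite.
-/

namespace Vale.Agent.P261.H321

variable {p : ℕ} [Fact p.Prime] {A : Type*} [AddCommGroup A]

/-- derived `p`-complete groups: `x ↦ (x_i - p x_{i+1})` is bijective on the sequences -/
structure PComp (p : ℕ) (A : Type*) [AddCommGroup A] : Prop where
  zero : ∀ x : ℕ → A, (∀ i, x i = (p : ℤ) • x (i + 1)) → ∀ i, x i = 0
  sol : ∀ b : ℕ → A, ∃ x : ℕ → A, ∀ i, x i - (p : ℤ) • x (i + 1) = b i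

theorem exists_digit (u : ℤ_[p]) : ∃ (m : ℤ) (v : ℤ_[p]), u = (m : ℤ_[p]) + (p : ℤ_[p]) * v := by
  obtain ⟨n, -, h⟩ := PadicInt.exists_mem_range (p := p) u
  rw [PadicInt.maximalIdeal_eq_span_p, Ideal.mem_span_singleton] at h
  obtain ⟨v, hv⟩ := h
  exact ⟨n, v, by push_cast; rw [← hv]; ring⟩

/-- digits of `p`-adic integers -/
theorem exists_digits (u : ℤ_[p]) : ∃ (m : ℕ → ℤ) (v : ℕ → ℤ_[p]), v 0 = u ∧
    ∀ i, v i = (m i : ℤ_[p]) + (p : ℤ_[p]) * v (i + 1) := by
  choose m v h using exists_digit (p := p)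
  exact ⟨fun i => m (v^[i] u), fun i => v^[i] u, rfl, fun i => by
    simp only [Function.iterate_succ_apply']
    exact h _⟩

theorem int_of_mul {k : ℤ} {v : ℤ_[p]} (h : (k : ℤ_[p]) = (p : ℤ_[p]) * v) :
    ∃ l : ℤ, v = (l : ℤ_[p]) := by
  have h1 : (p : ℤ_[p]) ∣ (k : ℤ_[p]) := ⟨v, h⟩
  have h2 : (p : ℤ) ∣ k := by
    have h3 : (k : ℤ_[p]) ∈ (IsLocalRing.maximalIdeal ℤ_[p]) := by
      rw [PadicInt.maximalIdeal_eq_span_p, Ideal.mem_span_singleton]
      exact h1
    rw [IsLocalRing.mem_maximalIdeal, mem_nonunits_iff, PadicInt.isUnit_iff] at h3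
    have h4 : ‖(k : ℤ_[p])‖ < 1 := lt_of_le_of_ne (PadicInt.norm_le_one _) h3
    exact (PadicInt.norm_int_lt_one_iff_dvd k).1 h4
  obtain ⟨l, rfl⟩ := h2
  refine ⟨l, ?_⟩
  have hp : (p : ℤ_[p]) ≠ 0 := by exact_mod_cast (Fact.out : p.Prime).ne_zero
  have h5 : (p : ℤ_[p]) * (l : ℤ_[p]) = (p : ℤ_[p]) * v := by rw [← h]; push_cast; ring
  exact (mul_left_cancel₀ hp h5).symm

/-- the graph of the additive map `ℤ_p → A`, `1 ↦ a` -/
def Gr (p : ℕ) [Fact p.Prime] (a : A) (u : ℤ_[p]) (y : A) : Prop :=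
  ∃ (m : ℕ → ℤ) (v : ℕ → ℤ_[p]) (x : ℕ → A), v 0 = u ∧ x 0 = y ∧
    (∀ i, v i = (m i : ℤ_[p]) + (p : ℤ_[p]) * v (i + 1)) ∧
    ∀ i, x i = m i • a + (p : ℤ) • x (i + 1)

theorem Gr.add {a : A} {u v : ℤ_[p]} {y z : A} (h : Gr p a u y) (h' : Gr p a v z) :
    Gr p a (u + v) (y + z) := by
  obtain ⟨m, w, x, hw, hx, h1, h2⟩ := h
  obtain ⟨m', w', x', hw', hx', h1', h2'⟩ := h'
  refine ⟨m + m', w + w', x + x', ?_, ?_, fun i => ?_, fun i => ?_⟩
  · simp [hw, hw']
  · simp [hx, hx']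
  · simp only [Pi.add_apply]
    rw [h1 i, h1' i]
    push_cast
    ring
  · simp only [Pi.add_apply]
    rw [h2 i, h2' i, add_smul, smul_add]
    abel

theorem Gr.one (a : A) : Gr p a 1 a := by
  refine ⟨fun i => if i = 0 then 1 else 0, fun i => if i = 0 then 1 else 0,
    fun i => if i = 0 then a else 0, by simp, by simp, fun i => ?_, fun i => ?_⟩
  · by_cases h : i = 0 <;> simp [h]
  · by_cases h : i = 0 <;> simp [h]

omit [Fact p.Prime] in
theorem PComp.equiv {B : Type*} [AddCommGroup B] (h : PComp p A) (e : A ≃+ B) : PComp p B := by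
  constructor
  · intro x hx i
    have h1 := h.zero (fun i => e.symm (x i)) (fun i => by rw [hx i, map_zsmul]) i
    exact (map_eq_zero_iff e.symm e.symm.injective).1 h1
  · intro b
    obtain ⟨x, hx⟩ := h.sol fun i => e.symm (b i)
    refine ⟨fun i => e (x i), fun i => ?_⟩
    rw [← map_zsmul, ← map_sub, hx i, AddEquiv.apply_symm_apply]

variable (hA : PComp p A)

include hA

theorem PComp.exists_gr (a : A) (u : ℤ_[p]) : ∃ y, Gr p a u y := by
  obtain ⟨m, v, h0, hv⟩ := exists_digits u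
  obtain ⟨x, hx⟩ := hA.sol fun i => m i • a
  exact ⟨x 0, m, v, x, h0, rfl, hv, fun i => by rw [← hx i]; abel⟩

theorem PComp.gr_zero {a y : A} (h : Gr p a 0 y) : y = 0 := by
  obtain ⟨m, v, x, hv, hx, h1, h2⟩ := h
  have hk : ∀ i, ∃ k : ℤ, v i = (k : ℤ_[p]) := by
    intro i
    induction i with
    | zero => exact ⟨0, by simp [hv]⟩
    | succ i ih =>
      obtain ⟨k, hk⟩ := ih
      refine int_of_mul (k := k - m i) ?_
      push_cast
      rw [← hk, h1 i]
      ring
  choose k hk using hk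
  have hinj : Function.Injective (Int.cast : ℤ → ℤ_[p]) := Int.cast_injective
  have hk1 : ∀ i, k i = m i + p * k (i + 1) := fun i => hinj (by
    push_cast
    rw [← hk, ← hk]
    exact h1 i)
  have hk0 : k 0 = 0 := hinj (by rw [← hk, hv]; simp)
  have h3 := hA.zero (fun i => x i - k i • a) (fun i => by
    rw [h2 i, hk1 i, add_smul, smul_sub, mul_smul]
    abel) 0
  simp only [hk0, zero_smul, sub_zero] at h3
  rw [← hx, h3]

theorem PComp.gr_unique {a : A} {u : ℤ_[p]} {y z : A} (h : Gr p a u y) (h' : Gr p a u z) :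
    y = z := by
  obtain ⟨m, w, x, hw, hx, h1, h2⟩ := h
  obtain ⟨m', w', x', hw', hx', h1', h2'⟩ := h'
  refine sub_eq_zero.1 (hA.gr_zero (a := a) ⟨m - m', w - w', x - x', ?_, ?_, fun i => ?_,
    fun i => ?_⟩)
  · simp [hw, hw']
  · simp [hx, hx']
  · simp only [Pi.sub_apply]
    rw [h1 i, h1' i]
    push_cast
    ring
  · simp only [Pi.sub_apply]
    rw [h2 i, h2' i, sub_smul, smul_sub]
    abel

/-- the additive map `ℤ_p → A`, `1 ↦ a` -/
noncomputable def PComp.hom (a : A) : ℤ_[p] →+ A where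
  toFun u := (hA.exists_gr a u).choose
  map_zero' := hA.gr_zero (hA.exists_gr a 0).choose_spec
  map_add' u v := hA.gr_unique (hA.exists_gr a (u + v)).choose_spec
    ((hA.exists_gr a u).choose_spec.add (hA.exists_gr a v).choose_spec)

theorem PComp.hom_one (a : A) : hA.hom a 1 = a :=
  hA.gr_unique (hA.exists_gr a 1).choose_spec (Gr.one a)

/-- additive maps from `ℤ_p` are determined by their value at `1` -/
theorem PComp.ext {f g : ℤ_[p] →+ A} (h : f 1 = g 1) : f = g := by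
  ext u
  obtain ⟨m, v, h0, hv⟩ := exists_digits u
  have key : ∀ w : ℤ_[p] →+ A, ∀ i, w (v i) = m i • w 1 + (p : ℤ) • w (v (i + 1)) := by
    intro w i
    conv_lhs => rw [hv i]
    rw [map_add, ← zsmul_one (m i), map_zsmul, show (p : ℤ_[p]) * v (i + 1) = (p : ℤ) • v (i + 1) by
      simp, map_zsmul]
  have h1 := hA.zero (fun i => f (v i) - g (v i)) (fun i => by
    rw [key f i, key g i, h, smul_sub]
    abel) 0
  rw [← h0]
  exact sub_eq_zero.1 h1

/-- the structure of `ℤ_p`-module -/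
noncomputable abbrev PComp.module : Module ℤ_[p] A where
  smul u a := hA.hom a u
  one_smul a := hA.hom_one a
  mul_smul u v a := by
    have h1 : (hA.hom a).comp (AddMonoidHom.mulRight v) = hA.hom (hA.hom a v) :=
      hA.ext (by
        rw [hA.hom_one, AddMonoidHom.comp_apply, AddMonoidHom.mulRight_apply, one_mul])
    exact DFunLike.congr_fun h1 u
  smul_zero u := by
    have h1 : hA.hom (0 : A) = 0 := hA.ext (by rw [hA.hom_one]; rfl)
    exact DFunLike.congr_fun h1 u
  smul_add u a b := by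
    have h1 : hA.hom (a + b) = hA.hom a + hA.hom b := hA.ext (by
      rw [hA.hom_one, AddMonoidHom.add_apply, hA.hom_one, hA.hom_one])
    exact DFunLike.congr_fun h1 u
  add_smul u v a := (hA.hom a).map_add u v
  zero_smul a := (hA.hom a).map_zero

/-- the structure of `ℤ_p`-module is unique -/
theorem PComp.module_unique (m m' : Module ℤ_[p] A) : m = m' := by
  refine Module.ext' _ _ fun u a => ?_
  let f : ℤ_[p] →+ A := @AddMonoidHom.mk' _ _ _ _ (fun u => m.smul u a) fun u v => m.add_smul u v a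
  let g : ℤ_[p] →+ A := @AddMonoidHom.mk' _ _ _ _ (fun u => m'.smul u a)
    fun u v => m'.add_smul u v a
  have h : f = g := hA.ext ((m.one_smul a).trans (m'.one_smul a).symm)
  exact DFunLike.congr_fun h u

omit hA

/-- `ℤ_p` is `p`-complete -/
theorem exists_sum (m : ℕ → ℤ) : ∃ u : ℕ → ℤ_[p], ∀ i,
    u i = (m i : ℤ_[p]) + (p : ℤ_[p]) * u (i + 1) := by
  have hs : ∀ i, Summable fun k => (m (i + k) : ℤ_[p]) * (p : ℤ_[p]) ^ k := by
    intro i
    refine Summable.of_norm_bounded (g := fun k => ((p : ℝ)⁻¹) ^ k)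
      (summable_geometric_of_lt_one (by positivity) (inv_lt_one_of_one_lt₀ (by
        exact_mod_cast (Fact.out : p.Prime).one_lt))) fun k => ?_
    rw [norm_mul, norm_pow, PadicInt.norm_p]
    exact mul_le_of_le_one_left (by positivity) (PadicInt.norm_le_one _)
  refine ⟨fun i => ∑' k, (m (i + k) : ℤ_[p]) * (p : ℤ_[p]) ^ k, fun i => ?_⟩
  change ∑' k, (m (i + k) : ℤ_[p]) * (p : ℤ_[p]) ^ k = (m i : ℤ_[p]) +
    (p : ℤ_[p]) * ∑' k, (m (i + 1 + k) : ℤ_[p]) * (p : ℤ_[p]) ^ k
  rw [(hs i).tsum_eq_zero_add, ← (hs (i + 1)).tsum_mul_left]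
  simp only [add_zero, pow_zero, mul_one]
  congr 1
  refine tsum_congr fun k => ?_
  rw [show i + (k + 1) = i + 1 + k by ring, pow_succ]
  ring

/-- a `ℤ_p`-module which is `p`-complete is finitely generated if it is finite modulo `p` -/
theorem PComp.finite_of_reps (hA : PComp p A) [Module ℤ_[p] A] {r : ℕ} (e : Fin r → A)
    (he : ∀ a, ∃ j b, a = e j + (p : ℤ) • b) : Module.Finite ℤ_[p] A := by
  refine ⟨⟨(Set.finite_range e).toFinset, ?_⟩⟩
  rw [eq_top_iff, Set.Finite.coe_toFinset]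
  intro a _
  choose J B hB using he
  -- the remainders
  let x : ℕ → A := fun i => B^[i] a
  have hx : ∀ i, x i = e (J (x i)) + (p : ℤ) • x (i + 1) := fun i => by
    have h1 : x (i + 1) = B (x i) := Function.iterate_succ_apply' _ _ _
    rw [h1]
    exact hB _
  choose u hu using fun j => exists_sum (p := p) fun i => if J (x i) = j then 1 else 0
  have h1 := hA.zero (fun i => x i - ∑ j, u j i • e j) (fun i => by
    have h2 : ∑ j, u j i • e j = e (J (x i)) + (p : ℤ) • ∑ j, u j (i + 1) • e j := by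
      have h3 : ∀ j, u j i • e j = (if J (x i) = j then e j else 0) +
          (p : ℤ) • (u j (i + 1) • e j) := by
        intro j
        rw [hu j i, add_smul, mul_smul]
        congr 1
        · by_cases h : J (x i) = j <;> simp [h]
        · rw [← Int.cast_smul_eq_zsmul ℤ_[p]]
          simp
      rw [Finset.sum_congr rfl fun j _ => h3 j, Finset.sum_add_distrib, ← Finset.smul_sum]
      simp
    rw [h2, smul_sub]
    generalize (p : ℤ) • ∑ j, u j (i + 1) • e j = c
    have h5 : x i - (e (J (x i)) + c) = (e (J (x i)) + (p : ℤ) • x (i + 1)) - (e (J (x i)) + c) :=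
      congrArg (· - _) (hx i)
    rw [h5]
    abel) 0
  have h4 : a = ∑ j, u j 0 • e j := sub_eq_zero.1 h1
  rw [h4]
  exact Submodule.sum_mem _ fun j _ => Submodule.smul_mem _ _
    (Submodule.subset_span ⟨j, rfl⟩)

/-- approximation modulo `p ^ k` -/
theorem exists_appr (k : ℕ) {r : ℕ} (u : Fin r → ℤ_[p]) : ∃ (d : Fin r → Fin (p ^ k))
    (v : Fin r → ℤ_[p]), u = (fun j => ((d j : ℕ) : ℤ_[p])) + ((p : ℤ) ^ k) • v := by
  have h : ∀ j, ∃ v : ℤ_[p], u j = (((u j).appr k : ℕ) : ℤ_[p]) + (p : ℤ_[p]) ^ k * v := by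
    intro j
    have h1 := PadicInt.appr_spec k (u j)
    rw [Ideal.mem_span_singleton] at h1
    obtain ⟨v, hv⟩ := h1
    exact ⟨v, by rw [← hv]; ring⟩
  choose v hv using h
  refine ⟨fun j => ⟨(u j).appr k, PadicInt.appr_lt _ _⟩, v, funext fun j => ?_⟩
  change u j = (((u j).appr k : ℕ) : ℤ_[p]) + ((p : ℤ) ^ k) • v j
  rw [zsmul_eq_mul, Int.cast_pow, Int.cast_natCast]
  exact hv j

/-- a map which kills `p ^ k A` has finite range -/
theorem finite_range [Module ℤ_[p] A] [Module.Finite ℤ_[p] A] {B : Type*} [AddCommGroup B]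
    (k : ℕ) (f : A →+ B) (hf : ∀ a, f (((p : ℤ) ^ k) • a) = 0) : Finite f.range := by
  obtain ⟨r, g, hg⟩ := Module.Finite.exists_fin' ℤ_[p] A
  refine Finite.of_surjective
    (fun d : Fin r → Fin (p ^ k) => f.rangeRestrict (g fun j => ((d j : ℕ) : ℤ_[p]))) ?_
  rintro ⟨_, a, rfl⟩
  obtain ⟨u, rfl⟩ := hg a
  obtain ⟨d, v, h⟩ := exists_appr (p := p) k u
  refine ⟨d, Subtype.ext ?_⟩
  change f (g fun j => ((d j : ℕ) : ℤ_[p])) = f (g u)
  conv_rhs => rw [h]
  rw [map_add, map_zsmul, map_add, hf, add_zero]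

/-- a finitely generated `ℤ_p`-module killed by `p ^ k` is finite -/
theorem finite_of_kills {M : Type*} [AddCommGroup M] [Module ℤ_[p] M] [Module.Finite ℤ_[p] M]
    (k : ℕ) (h : ∀ x : M, ((p : ℤ) ^ k) • x = 0) : Finite M := by
  have h1 := finite_range (p := p) k (AddMonoidHom.id M) fun a => h a
  exact Finite.of_injective (fun x : M => (⟨x, x, rfl⟩ : (AddMonoidHom.id M).range))
    fun x y hxy => congrArg Subtype.val hxy

/-- the `p ^ k`-torsion of a finitely generated `ℤ_p`-module is finite -/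
theorem finite_torsion [Module ℤ_[p] A] [Module.Finite ℤ_[p] A] (k : ℕ) :
    Finite {a : A // ((p : ℤ) ^ k) • a = 0} := by
  let N : Submodule ℤ_[p] A := LinearMap.ker (LinearMap.lsmul ℤ_[p] A ((p : ℤ_[p]) ^ k))
  have hN : ∀ a : A, a ∈ N ↔ ((p : ℤ) ^ k) • a = 0 := fun a => by
    rw [LinearMap.mem_ker, LinearMap.lsmul_apply, ← Int.cast_smul_eq_zsmul ℤ_[p]]
    simp
  have h1 : Finite N := finite_of_kills (p := p) k fun x => Subtype.ext ((hN x.1).1 x.2)
  exact Finite.of_equiv N (Equiv.subtypeEquivRight hN)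

omit [Fact p.Prime] in
/-- a map with finite range and small kernel gives finitely many representatives -/
theorem exists_reps {B : Type*} [AddCommGroup B] [Finite B] {k : ℕ} (hk : 0 < k) (f : A →+ B)
    (hf : ∀ a, f a = 0 → ∃ b, a = ((p : ℤ) ^ k) • b) :
    ∃ (r : ℕ) (e : Fin r → A), ∀ a, ∃ j b, a = e j + (p : ℤ) • b := by
  obtain ⟨r, ⟨e⟩⟩ := Finite.exists_equiv_fin f.range
  choose s hs using fun y : f.range => AddMonoidHom.mem_range.1 y.2
  refine ⟨r, fun j => s (e.symm j), fun a => ?_⟩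
  obtain ⟨y, hy⟩ : ∃ y : f.range, y.1 = f a := ⟨⟨f a, AddMonoidHom.mem_range.2 ⟨a, rfl⟩⟩, rfl⟩
  have h1 : f (a - s y) = 0 := by
    rw [map_sub, hs, hy, sub_self]
  obtain ⟨b, hb⟩ := hf _ h1
  refine ⟨e y, ((p : ℤ) ^ (k - 1)) • b, ?_⟩
  change a = s (e.symm (e y)) + _
  rw [Equiv.symm_apply_apply, smul_smul, ← pow_succ', Nat.sub_add_cancel hk, ← hb]
  abel

theorem finite_of_exact {G₁ G₂ G₃ : Type*} [AddCommGroup G₁] [AddCommGroup G₂] [AddCommGroup G₃]
    (f : G₁ →+ G₂) (g : G₂ →+ G₃) (h : ∀ y, g y = 0 → ∃ x, f x = y) [Finite f.range]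
    [Finite g.range] : Finite G₂ := by
  have hker : Finite g.ker := by
    have h3 : ∀ x : g.ker, x.1 ∈ f.range := fun x => h x.1 x.2
    exact Finite.of_injective (fun x : g.ker => (⟨x.1, h3 x⟩ : f.range))
      fun a b hab => Subtype.ext (congrArg (fun y : f.range => y.1) hab)
  exact Finite.of_equiv _ (AddSubgroup.addGroupEquivQuotientProdAddSubgroup (s := g.ker)).symm

theorem finite_of_exact' {G₁ G₂ G₃ : Type*} [AddCommGroup G₁] [AddCommGroup G₂]
    [AddCommGroup G₃] (f : G₁ →+ G₂) (g : G₂ →+ G₃) (h : ∀ y, g y = 0 → ∃ x, f x = y)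
    [Finite G₁] [Finite G₃] : Finite G₂ := by
  have h1 : Finite f.range := Finite.of_surjective f.rangeRestrict f.rangeRestrict_surjective
  have h2 : Finite g.range := inferInstance
  exact finite_of_exact f g h

end Vale.Agent.P261.H321
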