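import Vale.Agent.P261.H321.Stow
import Vale.Agent.P257.Main.Final
import Vale.Agent.P251.St.Result2
import Vale.Agent.P251.X.KExists

/-!
# P261 (helper321): the window criterion, final form
-/

open CategoryTheory MonoidalCategory Limits Pretriangulated MonObj

set_option linter.unusedSectionVars false

namespace Vale.Agent.P261.H321

open Vale.Agent.P251 Vale.Agent.P251.St Vale.Agent.P251.St.SHCat Vale.Agent.P261.St
open Vale.Agent.P257.H314

variable {T : SHCat} (S : Susp T) {p : ℕ}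

/-- Morava `K`-theories exist at odd primes. -/
theorem exists_morava' [hp : Fact p.Prime] (h2 : p ≠ 2) (n : ℕ) :
    ∃ K : RingSp T, IsMorava S K p n := by
  have := locallySmall_self.{0} T.C
  obtain ⟨K, hK⟩ := exists_morava p hp.out.ne_zero T S
    (fun n => X.exists_isMorava S.toSpaceFunctor h2 n)
  exact ⟨K n, hK n⟩

/-- `p` is zero on a Morava `K`-theory of positive height. -/
theorem char_of_morava {K : RingSp T} {n : ℕ} (hn : 1 ≤ n) (hK : IsMorava S K p n) :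
    (p : ℤ) • 𝟙 K.obj = 0 := by
  obtain ⟨m, rfl⟩ : ∃ m, n = m + 1 := ⟨n - 1, by omega⟩
  obtain ⟨-, o, hK'⟩ := isMorava_of S K hK
  exact kills_of_char hK'.char

/-- **Towers with `K(n)`-acyclic top**, `n ≤ 4`, `p ≥ 11`. -/
theorem exists_tower [hp : Fact p.Prime] (h11 : 11 ≤ p) {n : ℕ} (hn : 1 ≤ n) (hn4 : n ≤ 4)
    (K : RingSp T) (hK : IsMorava S K p n) :
    ∃ (N : ℕ) (V : T.C), (N : ℤ) = ∑ j ∈ Finset.Icc 1 n, (2 * (p : ℤ) ^ j - 1) ∧
      Tower p N V ∧ Acyclic K.obj V := by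
  obtain ⟨D, hD, -, -⟩ := P257.H80.exists_muAll S.toSpaceFunctor (M.lineIso S.toSpaceFunctor)
  obtain ⟨U⟩ := P251.S.exists_unitCof D.R
  obtain ⟨C, iC, δ, hC⟩ := distinguished_cocone_triangle ((p : ℤ) • 𝟙 (𝟙_ T.C))
  obtain ⟨V, i, hV⟩ := P257.H545.exists_V4P U h11 hC (P257.Main.factsP h11)
    (P257.H163.todaRel S.toSpaceFunctor D U (by omega) hC)
    (P257.H545.stepInput hp.out h11 (fun {_} => P257.Main.factsP h11) T.C D U C iC)
  have h5 : ∃ (V : T.C) (i : 𝟙_ T.C ⟶ V), STow D p 5 i := ⟨V, i, hV.tow⟩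
  have h4 : ∃ (V : T.C) (i : 𝟙_ T.C ⟶ V), STow D p 4 i := by
    obtain ⟨V, i, h⟩ := h5
    exact stow_pred h 4 rfl (by norm_num)
  have h3 : ∃ (V : T.C) (i : 𝟙_ T.C ⟶ V), STow D p 3 i := by
    obtain ⟨V, i, h⟩ := h4
    exact stow_pred h 3 rfl (by norm_num)
  have h2 : ∃ (V : T.C) (i : 𝟙_ T.C ⟶ V), STow D p 2 i := by
    obtain ⟨V, i, h⟩ := h3
    exact stow_pred h 2 rfl (by norm_num)
  have hs : ∃ (V : T.C) (i : 𝟙_ T.C ⟶ V), STow D p (n + 1) i := by
    obtain rfl | rfl | rfl | rfl : n = 1 ∨ n = 2 ∨ n = 3 ∨ n = 4 := by omega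
    · exact h2
    · exact h3
    · exact h4
    · exact h5
  obtain ⟨V, i, h⟩ := hs
  obtain ⟨m, hm, N, hN, hT⟩ := tower_of_stow h
  obtain rfl : n = m := by omega
  refine ⟨N, V, hN, hT, ?_⟩
  have hcyc := stow_cyc (by omega) h
  rw [acyclic_iff]
  obtain ⟨k, rfl⟩ : ∃ k, n = k + 1 := ⟨n - 1, by omega⟩
  obtain ⟨-, o, hK'⟩ := isMorava_of S K hK
  exact acyclic_of_cyc hD hn hcyc o hK'

/-- the structure of `ℤ_p`-module on the homotopy groups is unique -/
theorem unique_module [Fact p.Prime] {K X : T.C} (hK : (p : ℤ) • 𝟙 K = 0)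
    (hX : IsLocal K X) (t : ℤ) : Nonempty (Unique (Module ℤ_[p] (Pi t X))) :=
  have h := pcomp_of_local hK hX (sphere T t)
  ⟨{ default := h.module, uniq := fun m => h.module_unique m _ }⟩

end Vale.Agent.P261.H321
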