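import Vale.Agent.P261.H321.Types
import Vale.Agent.P261.H321.Final

/-!
# P261 (helper321): windows for all primes and all heights
-/

open CategoryTheory MonoidalCategory Limits Pretriangulated MonObj

set_option linter.unusedSectionVars false

namespace Vale.Agent.P261.H321

open Vale.Agent.P251 Vale.Agent.P251.St Vale.Agent.P251.St.SHCat Vale.Agent.P261.St
  Vale.Agent.P257.H314 Vale.Agent.P257.H702 Vale.Agent.P241.St

variable {T : SHCat} {p : ℕ}

/-- **For every prime and every height there is a window.** -/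
theorem exists_window (S : Susp T) [Fact p.Prime] {n : ℕ} (hn : 1 ≤ n) {K : RingA T}
    (hK : IsMoravaK S p n K) :
    ∃ N : ℕ, ∀ X : T.C, IsLocal K.obj X → Window p N X := by
  obtain ⟨b, e, k, G, hG, hA, hk, h0⟩ := exists_cells S hK
  refine ⟨(e - b).toNat, fun X hX a ha t => ?_⟩
  refine window_of_cells S (char_of_moravaK S hn hK) hX hG hA hk h0 a (fun t h1 h2 => ?_) t
  exact ha t h1 (h2.trans_le (by have := Int.self_le_toNat (e - b); omega))

/-- **The window for `p ≥ 11`, `n ≤ 4`.** -/
theorem window_of_low (S : Susp T) [Fact p.Prime] (h11 : 11 ≤ p) {n : ℕ} (hn : 1 ≤ n)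
    (hn4 : n ≤ 4) {K : RingSp T} (hK : IsMorava S K p n) {X : T.C} (hX : IsLocal K.obj X) :
    Window p (∑ j ∈ Finset.Icc 1 n, (2 * (p : ℤ) ^ j - 1)) X := by
  obtain ⟨N, V, hN, hT, hV⟩ := exists_tower S h11 hn hn4 K hK
  intro a ha t
  rw [← hN] at ha
  exact window_criterion (char_of_morava S hn hK) hX hT hV a ha t

end Vale.Agent.P261.H321
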