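import Mathlib.SetTheory.Cardinal.Continuum
import Mathlib.Data.Set.Finite.Lattice
import Vale.Agent.P251.S.Lim

/-!
# P261 (helper321): towers with finite kernels and cokernels

`A 0 ← A 1 ← A 2 ← …` a tower of abelian groups, the kernels and cokernels of the transition maps
are finite, and the map `x ↦ (x k - f k (x (k + 1)))` on the product is bijective.

* `Tow.dichotomy` : then `A 0` is finite or has the cardinality of the continuum.
-/

open Cardinal

namespace Vale.Agent.P261.H321

open Vale.Agent.P251.S (oneSub tr stab Compat mem_stab f_tr tr_tr tr_succ_apply)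

/-- towers with finite kernels and cokernels and vanishing `lim`, `lim¹` -/
structure Tow {A : ℕ → Type} [∀ k, AddCommGroup (A k)] (f : ∀ k, A (k + 1) →+ A k) : Prop where
  ker : ∀ k, {x : A (k + 1) | f k x = 0}.Finite
  cok : ∀ k, ∃ Q : Set (A k), Q.Finite ∧ ∀ a, ∃ q ∈ Q, ∃ y, a = q + f k y
  zero : ∀ x : ∀ k, A k, (∀ k, f k (x (k + 1)) = x k) → ∀ k, x k = 0
  sol : ∀ b : ∀ k, A k, ∃ x : ∀ k, A k, ∀ k, x k - f k (x (k + 1)) = b k

variable {A : ℕ → Type} [∀ k, AddCommGroup (A k)] {f : ∀ k, A (k + 1) →+ A k}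

/-- fibres are finite -/
theorem Tow.finite_fibre (H : Tow f) (k : ℕ) (y : A k) : {x : A (k + 1) | f k x = y}.Finite := by
  by_cases hy : ∃ z, f k z = y
  · obtain ⟨z, rfl⟩ := hy
    refine ((H.ker k).image fun w => w + z).subset fun x hx => ⟨x - z, ?_, sub_add_cancel x z⟩
    change f k (x - z) = 0
    rw [map_sub, sub_eq_zero]
    exact hx
  · exact Set.finite_empty.subset fun x hx => hy ⟨x, hx⟩

/-- stable elements lift to stable elements -/
theorem Tow.stab_surj (H : Tow f) (n : ℕ) (a : A n) (ha : a ∈ stab f n) :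
    ∃ b ∈ stab f (n + 1), f n b = a := by
  by_contra hcon
  push Not at hcon
  have h1 : ∀ b : A (n + 1), f n b = a → ∃ k, n + 1 ≤ k ∧ ∀ y : A k, tr f (n + 1) k y ≠ b := by
    intro b hb
    by_contra h2
    push Not at h2
    exact hcon b (mem_stab.2 h2) hb
  choose! k hk hk' using h1
  obtain ⟨K, hK⟩ := ((H.finite_fibre n a).image k).bddAbove
  have hK' : ∀ b : A (n + 1), f n b = a → k b ≤ K := fun b hb => hK ⟨b, hb, rfl⟩
  obtain ⟨z, hz⟩ := mem_stab.1 ha (max K (n + 1)) (by omega)
  have h3 : f n (tr f (n + 1) (max K (n + 1)) z) = a := by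
    rw [f_tr f (by omega), hz]
  refine hk' _ h3 (tr f _ (max K (n + 1)) z) ?_
  exact tr_tr f (hk _ h3) ((hK' _ h3).trans (le_max_left _ _)) z

/-- **König's lemma** -/
theorem Tow.eq_zero (H : Tow f) (a : A 0) (h : ∀ k, a ∈ (tr f 0 k).range) : a = 0 := by
  choose g hg1 hg2 using H.stab_surj
  let z : ∀ n, stab f n := fun n => Nat.rec (motive := fun n => stab f n)
    ⟨a, fun k _ => h k⟩ (fun n zn => ⟨g n zn.1 zn.2, hg1 n _ _⟩) n
  exact H.zero (fun n => (z n).1) (fun n => hg2 n _ _) 0

theorem range_mono {k l : ℕ} (h : k ≤ l) : (tr f 0 l).range ≤ (tr f 0 k).range := by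
  rintro _ ⟨x, rfl⟩
  exact ⟨tr f k l x, tr_tr f (Nat.zero_le k) h x⟩

/-- the images have finite index -/
theorem Tow.reps (H : Tow f) (k : ℕ) :
    ∃ Q : Set (A 0), Q.Finite ∧ ∀ a, ∃ q ∈ Q, a - q ∈ (tr f 0 k).range := by
  induction k with
  | zero => exact ⟨{0}, Set.finite_singleton _, fun a => ⟨0, rfl, ⟨a, by simp⟩⟩⟩
  | succ k ih =>
    obtain ⟨Q, hQ, hQ'⟩ := ih
    obtain ⟨R, hR, hR'⟩ := H.cok k
    refine ⟨Set.image2 (fun q r => q + tr f 0 k r) Q R, hQ.image2 _ hR, fun a => ?_⟩
    obtain ⟨q, hq, x, hx⟩ := hQ' a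
    obtain ⟨r, hr, y, rfl⟩ := hR' x
    refine ⟨_, ⟨q, hq, r, hr, rfl⟩, y, ?_⟩
    rw [tr_succ_apply f (Nat.zero_le k)]
    rw [map_add] at hx
    rw [← sub_sub, ← hx]
    abel

/-- the upper bound -/
theorem Tow.le (H : Tow f) : #(A 0) ≤ 𝔠 := by
  choose Q hQ hQ' using H.reps
  choose q hq hq' using hQ'
  have h1 : ∀ k, ∃ e : Q k → ℕ, Function.Injective e := fun k => by
    have := (hQ k).to_subtype
    obtain ⟨n, ⟨e⟩⟩ := Finite.exists_equiv_fin (Q k)
    exact ⟨fun x => (e x : ℕ), fun x y h => e.injective (Fin.val_injective h)⟩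
  choose e he using h1
  have h2 : Function.Injective (fun a : A 0 => fun k => e k ⟨q k a, hq k a⟩) := by
    intro a b hab
    rw [← sub_eq_zero]
    refine H.eq_zero _ fun k => ?_
    have h3 : q k a = q k b := congrArg Subtype.val (he k (congrFun hab k))
    have h4 : a - b = (a - q k a) - (b - q k b) := by rw [h3]; abel
    rw [h4]
    exact AddSubgroup.sub_mem _ (hq' k a) (hq' k b)
  refine (Cardinal.mk_le_of_injective h2).trans (le_of_eq ?_)
  simp

/-- the lower bound -/
theorem Tow.ge (H : Tow f) (h0 : Infinite (A 0)) : 𝔠 ≤ #(A 0) := by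
  -- the steps where the image drops
  let I : Set ℕ := {k | ∃ c : A k, tr f 0 k c ∉ (tr f 0 (k + 1)).range}
  have hI : I.Infinite := by
    intro hfin
    obtain ⟨m, hm⟩ := hfin.bddAbove
    have h1 : ∀ k, m + 1 ≤ k → (tr f 0 (m + 1)).range ≤ (tr f 0 k).range := by
      intro k hk
      induction k, hk using Nat.le_induction with
      | base => exact le_rfl
      | succ k hk ih =>
        refine ih.trans ?_
        rintro _ ⟨x, rfl⟩
        by_contra hx
        have := hm (show k ∈ I from ⟨x, hx⟩)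
        omega
    have h2 : ∀ a ∈ (tr f 0 (m + 1)).range, a = 0 := fun a ha => H.eq_zero a fun k => by
      rcases le_total (m + 1) k with h | h
      · exact h1 k h ha
      · exact range_mono h ha
    obtain ⟨Q, hQ, hQ'⟩ := H.reps (m + 1)
    have h3 : (Set.univ : Set (A 0)) ⊆ Q := fun a _ => by
      obtain ⟨q, hq, hq'⟩ := hQ' a
      rw [sub_eq_zero.1 (h2 _ hq')]
      exact hq
    exact Set.infinite_univ (hQ.subset h3)
  have hc : ∀ k : I, ∃ c : A k, tr f 0 k c ∉ (tr f 0 (k + 1)).range := fun k => k.2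
  choose c hc using hc
  classical
  let b : Set I → ∀ k, A k := fun E k => if h : k ∈ I then (if (⟨k, h⟩ : I) ∈ E then c ⟨k, h⟩ else 0)
    else 0
  choose x hx using fun E => H.sol (b E)
  have hsum : ∀ (E : Set I) (k : ℕ),
      x E 0 = ∑ i ∈ Finset.Ico 0 k, tr f 0 i (b E i) + tr f 0 k (x E k) := by
    intro E k
    have h1 := Vale.Agent.P251.S.oneSub_sum (f := f) (x E) (Nat.zero_le k)
    have h2 : oneSub f (x E) = b E := funext (hx E)
    rw [h2] at h1
    rw [h1]
    abel
  have hinj : Function.Injective (fun E : Set I => x E 0) := by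
    intro E E' hE
    by_contra hne
    have hex : ∃ k : ℕ, b E k ≠ b E' k := by
      by_contra hall
      push Not at hall
      refine hne (Set.ext fun k => ?_)
      have h1 := hall k.1
      have hk : c k ≠ 0 := fun h0 => hc k (by rw [h0, map_zero]; exact AddSubgroup.zero_mem _)
      simp only [b, dif_pos k.2] at h1
      by_cases h2 : k ∈ E <;> by_cases h3 : k ∈ E'
      · simp [h2, h3]
      · simp only [Subtype.coe_eta, h2, h3, if_true, if_false] at h1
        exact absurd h1 hk
      · simp only [Subtype.coe_eta, h2, h3, if_true, if_false] at h1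
        exact absurd h1.symm hk
      · simp [h2, h3]
    let k := Nat.find hex
    have hk : b E k ≠ b E' k := Nat.find_spec hex
    have hlt : ∀ i < k, b E i = b E' i := fun i hi => not_not.1 (Nat.find_min hex hi)
    have h1 := hsum E (k + 1)
    have h2 := hsum E' (k + 1)
    have h3 : x E 0 = x E' 0 := hE
    rw [h1, h2, Finset.sum_Ico_succ_top (Nat.zero_le k), Finset.sum_Ico_succ_top (Nat.zero_le k),
      Finset.sum_congr rfl fun i hi => by rw [hlt i (Finset.mem_Ico.1 hi).2]] at h3
    have h4 : tr f 0 k (b E k - b E' k) = tr f 0 (k + 1) (x E' (k + 1) - x E (k + 1)) := by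
      rw [map_sub, map_sub]
      have h5 : ∀ s u v u' v' : A 0, s + u + v = s + u' + v' → u - u' = v' - v := by
        intro s u v u' v' h
        have h6 : u + v = u' + v' := by
          rw [add_assoc, add_assoc] at h
          exact add_left_cancel h
        rw [sub_eq_sub_iff_add_eq_add, h6, add_comm]
      exact h5 _ _ _ _ _ h3
    have hkI : k ∈ I := by
      by_contra hkI
      exact hk (by simp only [b, dif_neg hkI])
    have h6 : tr f 0 k (c ⟨k, hkI⟩) ∈ (tr f 0 (k + 1)).range := by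
      by_cases h7 : (⟨k, hkI⟩ : I) ∈ E <;> by_cases h8 : (⟨k, hkI⟩ : I) ∈ E'
      · exact absurd (by simp only [b, dif_pos hkI, if_pos h7, if_pos h8]) hk
      · have h9 : b E k - b E' k = c ⟨k, hkI⟩ := by
          simp only [b, dif_pos hkI, if_pos h7, if_neg h8, sub_zero]
        rw [← h9, h4]
        exact ⟨_, rfl⟩
      · have h9 : b E k - b E' k = - c ⟨k, hkI⟩ := by
          simp only [b, dif_pos hkI, if_neg h7, if_pos h8, zero_sub]
        rw [h9, map_neg] at h4
        rw [← neg_neg (tr f 0 k (c ⟨k, hkI⟩)), h4]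
        exact AddSubgroup.neg_mem _ ⟨_, rfl⟩
      · exact absurd (by simp only [b, dif_pos hkI, if_neg h7, if_neg h8]) hk
    exact hc ⟨k, hkI⟩ h6
  refine le_trans (le_of_eq ?_) (Cardinal.mk_le_of_injective hinj)
  have := hI.to_subtype
  rw [Cardinal.mk_set, Cardinal.mk_eq_aleph0, Cardinal.two_power_aleph0]

/-- **The dichotomy.** -/
theorem Tow.dichotomy (H : Tow f) : Finite (A 0) ∨ #(A 0) = 𝔠 := by
  rcases finite_or_infinite (A 0) with h | h
  · exact Or.inl h
  · exact Or.inr (le_antisymm H.le (H.ge h))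

end Vale.Agent.P261.H321
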