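import Vale.Agent.P261.H321.Alg
import Mathlib.LinearAlgebra.Dual.Lemmas
import Mathlib.Algebra.Module.ZMod

/-!
# P261 (helper321): abelian groups killed by a power of `p`
-/

namespace Vale.Agent.P261.H321

variable {p : ℕ} {A : Type*} [AddCommGroup A]

theorem dual_aux [Fact p.Prime] {Q : Type*} [AddCommGroup Q] [Module (ZMod p) Q] (v : Q)
    (hv : v ≠ 0) : ∃ φ : Q →+ ZMod p, φ v ≠ 0 := by
  have h3 : ¬ ∀ φ : Module.Dual (ZMod p) Q, φ v = 0 := fun h =>
    hv ((Module.forall_dual_apply_eq_zero_iff (ZMod p) _).1 h)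
  push Not at h3
  obtain ⟨φ, hφ⟩ := h3
  exact ⟨φ.toAddMonoidHom, hφ⟩

/-- an element which is not divisible by `p` is detected by a map to `ℤ / p` -/
theorem exists_dual [Fact p.Prime] (x : A) (hx : ∀ y : A, x ≠ (p : ℤ) • y) :
    ∃ Φ : A →+ ZMod p, Φ x ≠ 0 := by
  let N : AddSubgroup A := (zsmulAddGroupHom (α := A) (p : ℤ)).range
  have h1 : ∀ q : A ⧸ N, p • q = 0 := by
    intro q
    obtain ⟨a, rfl⟩ := QuotientAddGroup.mk_surjective q
    rw [← QuotientAddGroup.mk_nsmul, QuotientAddGroup.eq_zero_iff]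
    exact ⟨a, by simp [zsmulAddGroupHom]⟩
  let _ : Module (ZMod p) (A ⧸ N) := AddCommGroup.zmodModule h1
  have h2 : (QuotientAddGroup.mk' N x) ≠ 0 := by
    intro h
    rw [QuotientAddGroup.mk'_apply, QuotientAddGroup.eq_zero_iff] at h
    obtain ⟨y, hy⟩ := h
    exact hx y (by simpa [zsmulAddGroupHom] using hy.symm)
  obtain ⟨φ, hφ⟩ := dual_aux (p := p) _ h2
  exact ⟨φ.comp (QuotientAddGroup.mk' N), hφ⟩

/-- iterated divisibility -/
theorem eq_zero_of_div {k : ℕ} (hk : ∀ a : A, ((p : ℤ) ^ k) • a = 0)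
    (h : ∀ a : A, ∃ b, a = (p : ℤ) • b) (a : A) : a = 0 := by
  have key : ∀ (k : ℕ) (a : A), ∃ b, a = ((p : ℤ) ^ k) • b := by
    intro k
    induction k with
    | zero => exact fun a => ⟨a, by simp⟩
    | succ k ih =>
      intro a
      obtain ⟨b, rfl⟩ := ih a
      obtain ⟨c, rfl⟩ := h b
      exact ⟨c, by rw [smul_smul, pow_succ]⟩
  obtain ⟨b, rfl⟩ := key k a
  exact hk b

/-- finite `p`-torsion -/
theorem finite_of_ptors {k : ℕ} (hk : ∀ a : A, ((p : ℤ) ^ k) • a = 0)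
    (h : Finite {a : A // (p : ℤ) • a = 0}) : Finite A := by
  have key : ∀ j : ℕ, Finite (zsmulAddGroupHom (α := A) ((p : ℤ) ^ j)).ker := by
    intro j
    induction j with
    | zero =>
      have : Subsingleton (zsmulAddGroupHom (α := A) ((p : ℤ) ^ 0)).ker := by
        refine ⟨fun a b => Subtype.ext ?_⟩
        have ha : ((p : ℤ) ^ 0) • a.1 = 0 := a.2
        have hb : ((p : ℤ) ^ 0) • b.1 = 0 := b.2
        simp only [pow_zero, one_smul] at ha hb
        rw [ha, hb]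
      infer_instance
    | succ j ih =>
      let G : AddSubgroup A := (zsmulAddGroupHom (α := A) ((p : ℤ) ^ (j + 1))).ker
      let H : AddSubgroup A := (zsmulAddGroupHom (α := A) ((p : ℤ) ^ j)).ker
      have h0 : Finite (zsmulAddGroupHom (α := A) (p : ℤ)).ker :=
        @Finite.of_equiv {a : A // (p : ℤ) • a = 0} _ h (Equiv.subtypeEquivRight fun a => Iff.rfl)
      let f : (zsmulAddGroupHom (α := A) (p : ℤ)).ker →+ G :=
        { toFun := fun a => ⟨a.1, by
            have ha : (p : ℤ) • a.1 = 0 := a.2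
            change ((p : ℤ) ^ (j + 1)) • a.1 = 0
            rw [pow_succ, mul_smul, ha, smul_zero]⟩
          map_zero' := rfl
          map_add' := fun _ _ => rfl }
      let g : G →+ H :=
        { toFun := fun a => ⟨(p : ℤ) • a.1, by
            have ha : ((p : ℤ) ^ (j + 1)) • a.1 = 0 := a.2
            change ((p : ℤ) ^ j) • ((p : ℤ) • a.1) = 0
            rw [smul_smul, ← pow_succ, ha]⟩
          map_zero' := Subtype.ext (smul_zero _)
          map_add' := fun _ _ => Subtype.ext (smul_add _ _ _) }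
      refine finite_of_exact' f g fun y hy => ?_
      exact ⟨⟨y.1, congrArg Subtype.val hy⟩, rfl⟩
  have h1 := key k
  exact Finite.of_injective
    (fun a : A => (⟨a, hk a⟩ : (zsmulAddGroupHom (α := A) ((p : ℤ) ^ k)).ker))
    fun a b hab => congrArg Subtype.val hab

/-- finitely many classes modulo `p` -/
theorem finite_of_quot {k : ℕ} (hk : ∀ a : A, ((p : ℤ) ^ k) • a = 0) {R : Set A} (hR : R.Finite)
    (h : ∀ a : A, ∃ r ∈ R, ∃ b, a = r + (p : ℤ) • b) : Finite A := by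
  have key : ∀ j : ℕ, ∃ Q : Set A, Q.Finite ∧ ∀ a : A, ∃ q ∈ Q, ∃ b, a = q + ((p : ℤ) ^ j) • b := by
    intro j
    induction j with
    | zero => exact ⟨{0}, Set.finite_singleton _, fun a => ⟨0, rfl, a, by simp⟩⟩
    | succ j ih =>
      obtain ⟨Q, hQ, hQ'⟩ := ih
      refine ⟨Set.image2 (fun q r => q + ((p : ℤ) ^ j) • r) Q R, hQ.image2 _ hR, fun a => ?_⟩
      obtain ⟨q, hq, b, rfl⟩ := hQ' a
      obtain ⟨r, hr, c, rfl⟩ := h b
      exact ⟨_, ⟨q, hq, r, hr, rfl⟩, c, by rw [smul_add, smul_smul, ← pow_succ, add_assoc]⟩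
  obtain ⟨Q, hQ, hQ'⟩ := key k
  have h1 : (Set.univ : Set A) ⊆ Q := by
    intro a _
    obtain ⟨q, hq, b, rfl⟩ := hQ' a
    rw [hk, add_zero]
    exact hq
  exact Set.finite_univ_iff.1 (hQ.subset h1)

/-- a map which kills the kernel of a map to a finite group has finitely many values -/
theorem finite_values {G H : Type*} [AddCommGroup G] [AddCommGroup H] [Finite H] (ρ : G →+ H)
    (R : G →+ A) (h : ∀ g, ρ g = 0 → ∃ a : A, R g = (p : ℤ) • a) :
    ∃ V : Set A, V.Finite ∧ ∀ g, ∃ r ∈ V, ∃ b, R g = r + (p : ℤ) • b := by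
  have hf : Finite ρ.range := inferInstance
  choose s hs using fun y : ρ.range => AddMonoidHom.mem_range.1 y.2
  refine ⟨Set.range fun y : ρ.range => R (s y), Set.finite_range _, fun g => ?_⟩
  obtain ⟨a, ha⟩ := h (g - s ⟨ρ g, g, rfl⟩) (by rw [map_sub, hs, sub_self])
  refine ⟨_, ⟨⟨ρ g, g, rfl⟩, rfl⟩, a, ?_⟩
  rw [← ha, map_sub]
  abel

/-- integers prime to `p` -/
theorem exists_inv [hp : Fact p.Prime] {n : ℤ} (hn : (n : ZMod p) ≠ 0) :
    ∃ a b : ℤ, a * n + b * p = 1 := by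
  have h1 : IsCoprime n (p : ℤ) := by
    rw [Int.isCoprime_iff_gcd_eq_one]
    have h2 : ¬ (p : ℤ) ∣ n := fun h => hn ((ZMod.intCast_zmod_eq_zero_iff_dvd n p).2 h)
    have h3 : IsCoprime (p : ℤ) n := (Prime.coprime_iff_not_dvd (Nat.prime_iff_prime_int.1 hp.out)).2 h2
    exact Int.isCoprime_iff_gcd_eq_one.1 h3.symm
  exact h1

end Vale.Agent.P261.H321
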