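import Mathlib.CategoryTheory.Triangulated.Yoneda
import Vale.Agent.P261.H321.Alg

/-!
# P261 (helper321): windows

`WP X V L` : if the groups `V ⟶ X⟦s⟧` are finite for all `s` in one interval of length `L`, then
they are finite for all `s`.

* `WP.step` : from the cofibre of a self map of degree `d` of `V` to `V`.
-/

open CategoryTheory Limits Pretriangulated

universe v u

namespace Vale.Agent.P261.H321

set_option linter.unusedSectionVars false

variable {C : Type u} [Category.{v} C] [Preadditive C] [HasZeroObject C] [HasShift C ℤ]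
  [∀ n : ℤ, (shiftFunctor C n).Additive]

/-- shifting both sides -/
noncomputable def shiftHom (V X : C) (a b c : ℤ) (h : c + a = b) :
    (V⟦a⟧ ⟶ X⟦b⟧) ≃+ (V ⟶ X⟦c⟧) :=
  AddEquiv.symm
    { toFun := fun f => f⟦a⟧' ≫ ((shiftFunctorAdd' C c a b h).app X).inv
      invFun := fun g => (shiftFunctor C a).preimage (g ≫ ((shiftFunctorAdd' C c a b h).app X).hom)
      left_inv := fun f => by simp
      right_inv := fun g => by simp
      map_add' := fun f g => by rw [Functor.map_add, Preadditive.add_comp] }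

/-- shifting the source -/
noncomputable def shiftHomZ (V X : C) (a c : ℤ) (h : c + a = 0) :
    (V⟦a⟧ ⟶ X) ≃+ (V ⟶ X⟦c⟧) :=
  AddEquiv.symm
    { toFun := fun f => f⟦a⟧' ≫ ((shiftFunctorCompIsoId C c a h).app X).hom
      invFun := fun g => (shiftFunctor C a).preimage (g ≫ ((shiftFunctorCompIsoId C c a h).app X).inv)
      left_inv := fun f => by simp
      right_inv := fun g => by simp
      map_add' := fun f g => by rw [Functor.map_add, Preadditive.add_comp] }

variable [Pretriangulated C]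

section exact

variable {A V W X : C} {f : A ⟶ V} {g : V ⟶ W} {h : W ⟶ A⟦(1 : ℤ)⟧}
  (hT : Triangle.mk f g h ∈ distTriang C)

include hT

/-- finiteness of the third term -/
theorem finite_third (Y : C) [Finite (V ⟶ Y)] [Finite (A⟦(1 : ℤ)⟧ ⟶ Y)] : Finite (W ⟶ Y) := by
  refine finite_of_exact' (Preadditive.leftComp Y h) (Preadditive.leftComp Y g) fun y hy => ?_
  obtain ⟨z, hz⟩ := Triangle.yoneda_exact₃ _ hT y hy
  exact ⟨z, hz.symm⟩

/-- finiteness of the middle term -/
theorem finite_mid (Y : C) [Finite (W ⟶ Y)] [Finite (A ⟶ Y)] : Finite (V ⟶ Y) := by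
  refine finite_of_exact' (Preadditive.leftComp Y g) (Preadditive.leftComp Y f) fun y hy => ?_
  obtain ⟨z, hz⟩ := Triangle.yoneda_exact₂ _ hT y hy
  exact ⟨z, hz.symm⟩

/-- finiteness of the first term -/
theorem finite_first (Y : C) [Finite (V ⟶ Y)] [Finite (W⟦(-1 : ℤ)⟧ ⟶ Y)] : Finite (A ⟶ Y) := by
  have hT' := inv_rot_of_distTriang _ hT
  let k : W⟦(-1 : ℤ)⟧ ⟶ A := (Triangle.mk f g h).invRotate.mor₁
  refine finite_of_exact' (Preadditive.leftComp Y f) (Preadditive.leftComp Y k) fun y hy => ?_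
  obtain ⟨z, hz⟩ := Triangle.yoneda_exact₂ _ hT' y hy
  exact ⟨z, hz.symm⟩

end exact

/-- the window property -/
def WP (X V : C) (L : ℤ) : Prop :=
  ∀ a : ℤ, (∀ s, a ≤ s → s < a + L → Finite (V ⟶ X⟦s⟧)) → ∀ s : ℤ, Finite (V ⟶ X⟦s⟧)

/-- **The step**: from the cofibre `W` of a self map of degree `d` of `V` to `V`. -/
theorem WP.step {X V W : C} {d L : ℤ} (hd : 0 < d) (hL : -1 ≤ L) {f : V⟦d⟧ ⟶ V} {g : V ⟶ W}
    {h : W ⟶ (V⟦d⟧)⟦(1 : ℤ)⟧} (hT : Triangle.mk f g h ∈ distTriang C) (H : WP X W L) :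
    WP X V (L + (d + 1)) := by
  intro a ha
  -- all the groups of `W` are finite
  have hW : ∀ s : ℤ, Finite (W ⟶ X⟦s⟧) := by
    refine H (a + d + 1) fun s h1 h2 => ?_
    have := ha s (by omega) (by omega)
    have h3 := ha (s - 1 - d) (by omega) (by omega)
    have h4 : Finite (V⟦d⟧ ⟶ X⟦s - 1⟧) :=
      Finite.of_equiv _ (shiftHom V X d (s - 1) (s - 1 - d) (by omega)).symm.toEquiv
    have h5 : Finite ((V⟦d⟧)⟦(1 : ℤ)⟧ ⟶ X⟦s⟧) :=
      Finite.of_equiv _ (shiftHom (V⟦d⟧) X 1 s (s - 1) (by omega)).symm.toEquiv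
    exact finite_third hT _
  -- periodicity
  have key : ∀ s : ℤ, Finite (V ⟶ X⟦s⟧) ↔ Finite (V ⟶ X⟦s + d⟧) := by
    intro s
    have e := shiftHom V X d (s + d) s rfl
    constructor
    · intro h1
      have h2 : Finite (V⟦d⟧ ⟶ X⟦s + d⟧) := Finite.of_equiv _ e.symm.toEquiv
      have h3 := hW (s + d)
      exact finite_mid hT _
    · intro h1
      have h3 : Finite (W⟦(-1 : ℤ)⟧ ⟶ X⟦s + d⟧) :=
        have := hW (s + d + 1)
        Finite.of_equiv _ (shiftHom W X (-1) (s + d) (s + d + 1) (by omega)).symm.toEquiv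
      have h4 : Finite (V⟦d⟧ ⟶ X⟦s + d⟧) := finite_first hT _
      exact Finite.of_equiv _ e.toEquiv
  have key2 : ∀ (s k : ℤ), Finite (V ⟶ X⟦s⟧) → Finite (V ⟶ X⟦s + k * d⟧) := by
    intro s k hs
    induction k using Int.induction_on with
    | zero => simpa using hs
    | succ k ih =>
      have h1 := (key (s + k * d)).1 ih
      rwa [show s + (k : ℤ) * d + d = s + ((k : ℤ) + 1) * d by ring] at h1
    | pred k ih =>
      refine (key _).2 ?_
      rwa [show s + (-(k : ℤ) - 1) * d + d = s + -(k : ℤ) * d by ring]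
  intro s
  have h1 := Int.emod_nonneg (s - a) hd.ne'
  have h2 := Int.emod_lt_of_pos (s - a) hd
  have h3 := ha (a + (s - a) % d) (by omega) (by omega)
  have h4 := key2 _ ((s - a) / d) h3
  have h5 : a + (s - a) % d + (s - a) / d * d = s := by
    have := Int.emod_add_mul_ediv (s - a) d
    rw [mul_comm] at this
    omega
  rwa [h5] at h4

/-- the last step -/
theorem wp_of_zero {X V : C} (h : ∀ (s : ℤ) (f : V ⟶ X⟦s⟧), f = 0) : WP X V (-1) := by
  intro _ _ s
  have : Subsingleton (V ⟶ X⟦s⟧) := ⟨fun f g => (h s f).trans (h s g).symm⟩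
  infer_instance

end Vale.Agent.P261.H321
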