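import Vale.Agent.P261.H321.Cut
import Vale.Agent.P261.H321.Grp
import Vale.Agent.P261.H321.Win

/-!
# P261 (helper321): the two steps along a finite complex

Let `G` be a retract of a finite complex with cells of dimensions in `[b, e]`, and `M`, `Y` objects
with `Hom (G ⊗ M, Y) = 0`.

* `step_up` : if some `𝟙⟦b⟧ ⟶ G` is not divisible by `p`, then finiteness of
  `Hom (𝟙⟦d⟧ ⊗ M, Y)`, `b < d < e`, implies finiteness for `d = b`;
* `step_down` : if some `G ⟶ 𝟙⟦e⟧` is not divisible by `p`, then finiteness for `d = e`.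
-/

open CategoryTheory MonoidalCategory Limits Pretriangulated ZeroObject
open Vale.Agent.P251.T Vale.Agent.P251.S Vale.Agent.P251.H Vale.Agent.P251.M
  Vale.Agent.P257.H314

universe v u

set_option linter.unusedSectionVars false

namespace Vale.Agent.P261.H321

variable {T : Type u} [Category.{v} T] [Preadditive T] [HasZeroObject T]
    [HasShift T ℤ] [∀ n : ℤ, (shiftFunctor T n).Additive] [Pretriangulated T]
    [MonoidalCategory T]

/-- endomorphisms of spheres are integers -/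
theorem endo_sph (hend : ∀ f : 𝟙_ T ⟶ 𝟙_ T, ∃ n : ℤ, f = n • 𝟙 _) (b : ℤ)
    (f : (𝟙_ T)⟦b⟧ ⟶ (𝟙_ T)⟦b⟧) : ∃ n : ℤ, f = n • 𝟙 _ := by
  obtain ⟨g, rfl⟩ := (shiftFunctor T b).map_surjective f
  obtain ⟨n, rfl⟩ := hend g
  exact ⟨n, by rw [Functor.map_zsmul, CategoryTheory.Functor.map_id]⟩

/-- maps into a complex with cells in one dimension -/
theorem eq_zero_of_basis (hc : Conn (T := T) 0 (𝟙_ T)) {b : ℤ} {W X : T}
    (hW : FinCell T {b} W) (h : ∀ f : X ⟶ (𝟙_ T)⟦b⟧, f = 0) (f : X ⟶ W) : f = 0 := by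
  obtain ⟨I, _, ι, π, e⟩ := exists_basis hc hW
  have h1 : f = f ≫ ∑ i, π i ≫ ι i := by rw [e, Category.comp_id]
  rw [h1, Preadditive.comp_sum]
  refine Finset.sum_eq_zero fun i _ => ?_
  rw [← Category.assoc, h (f ≫ π i), zero_comp]

variable [SymmetricCategory T] [TensorTriangulated T]

theorem wr_zero {X Y : T} (M : T) : (0 : X ⟶ Y) ▷ M = 0 := MonoidalPreadditive.zero_whiskerRight

theorem wr_zsmul {X Y : T} (M : T) (n : ℤ) (f : X ⟶ Y) : (n • f) ▷ M = n • (f ▷ M) :=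
  map_zsmul ((tensorRight M).mapAddHom (X := X) (Y := Y)) n f

theorem wr_sum {X Y : T} (M : T) {I : Type} [Fintype I] (f : I → (X ⟶ Y)) :
    (∑ i, f i) ▷ M = ∑ i, (f i ▷ M) :=
  map_sum ((tensorRight M).mapAddHom (X := X) (Y := Y)) f Finset.univ

theorem dist_wr {X Y Z : T} {f : X ⟶ Y} {g : Y ⟶ Z} {h : Z ⟶ X⟦(1 : ℤ)⟧} (D : Dist f g h)
    (M : T) : ∃ h', Dist (f ▷ M) (g ▷ M) h' := ⟨_, dist_whiskerRight M D⟩

/-- finiteness on finite complexes -/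
theorem finite_of_finCell {S : Set ℤ} {X M Y : T} (hX : FinCell T S X)
    (h : ∀ d ∈ S, Finite ((𝟙_ T)⟦d⟧ ⊗ M ⟶ Y)) : Finite (X ⊗ M ⟶ Y) := by
  induction hX with
  | zero X hX =>
    have h1 : IsZero (X ⊗ M) := (tensorRight M).map_isZero hX
    have : Subsingleton (X ⊗ M ⟶ Y) := ⟨fun f g => h1.eq_of_src f g⟩
    infer_instance
  | sphere d hd => exact h d hd
  | ext Δ hΔ _ _ ih₁ ih₃ =>
    have D : Dist Δ.mor₁ Δ.mor₂ Δ.mor₃ := hΔ
    obtain ⟨h', D'⟩ := dist_wr D M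
    exact finite_mid D' Y

variable [IsTriangulated T]

/-- **The step up.** -/
theorem step_up (hc : Conn (T := T) 0 (𝟙_ T)) (hend : ∀ f : 𝟙_ T ⟶ 𝟙_ T, ∃ n : ℤ, f = n • 𝟙 _)
    {p k : ℕ} [Fact p.Prime] {G F M Y : T} {b e : ℤ} (hF : FinCell T (Set.Icc b e) F)
    (inc : G ⟶ F) (pr : F ⟶ G) (hr : inc ≫ pr = 𝟙 G) (hG : ∀ f : G ⊗ M ⟶ Y, f = 0)
    (x : (𝟙_ T)⟦b⟧ ⟶ G) (hx : ∀ y, x ≠ (p : ℤ) • y)
    (hM : ∀ z : (𝟙_ T)⟦b⟧ ⊗ M ⟶ Y, ((p : ℤ) ^ k) • z = 0)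
    (hfin : ∀ d, b < d → d < e → Finite ((𝟙_ T)⟦d⟧ ⊗ M ⟶ Y)) :
    Finite ((𝟙_ T)⟦b⟧ ⊗ M ⟶ Y) := by
  -- the bottom cells
  obtain ⟨W, C, w, q, δ, D, hW, hC⟩ := exists_cut hc b hF
  have hW' : FinCell T {b} W := hW.mono fun d hd => le_antisymm hd.2 hd.1.1
  obtain ⟨κ, _, D'⟩ := Dist.invRot' D
  have hE : FinCell T (Set.Icc b (e - 1)) (C⟦(-1 : ℤ)⟧) := hC.shift (-1) fun d hd =>
    ⟨by have := hd.2; omega, by have := hd.1.2; omega⟩
  obtain ⟨W₁, E₁, v, q₁, δ₁, D₁, hW₁, hE₁⟩ := exists_cut hc b hE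
  have hW₁' : FinCell T {b} W₁ := hW₁.mono fun d hd => le_antisymm hd.2 hd.1.1
  -- the functional
  obtain ⟨Φ, hΦ⟩ := exists_dual (p := p) x hx
  obtain ⟨I, _, ι, π, hπ⟩ := exists_basis hc hW'
  have hlift : ∀ i, ∃ n : ℤ, (n : ZMod p) = Φ (ι i ≫ w ≫ pr) := fun i =>
    ZMod.intCast_surjective _
  choose n hn using hlift
  let Ψ : W ⟶ (𝟙_ T)⟦b⟧ := ∑ i, n i • π i
  have hΨ : ∀ u : (𝟙_ T)⟦b⟧ ⟶ W, ∃ c : ℤ, u ≫ Ψ = c • 𝟙 _ ∧ (c : ZMod p) = Φ (u ≫ w ≫ pr) := by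
    intro u
    choose m hm using fun i => endo_sph hend b (u ≫ π i)
    have h1 : u = ∑ i, m i • ι i := by
      have h2 : u = u ≫ ∑ i, π i ≫ ι i := by rw [hπ, Category.comp_id]
      rw [h2, Preadditive.comp_sum]
      refine Finset.sum_congr rfl fun i _ => ?_
      rw [← Category.assoc, hm, Preadditive.zsmul_comp, Category.id_comp]
    refine ⟨∑ i, m i * n i, ?_, ?_⟩
    · change u ≫ (∑ i, n i • π i) = _
      rw [Preadditive.comp_sum, Finset.sum_smul]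
      refine Finset.sum_congr rfl fun i _ => ?_
      rw [Preadditive.comp_zsmul, hm, smul_smul, mul_comm]
    · have h3 : u ≫ w ≫ pr = ∑ i, m i • (ι i ≫ w ≫ pr) := by
        conv_lhs => rw [h1]
        rw [Preadditive.sum_comp]
        refine Finset.sum_congr rfl fun i _ => ?_
        rw [Preadditive.zsmul_comp]
      rw [h3, map_sum]
      push_cast
      refine Finset.sum_congr rfl fun i _ => ?_
      rw [map_zsmul, ← hn, zsmul_eq_mul]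
  -- the cells between
  have hE₁f : Finite (E₁ ⊗ M ⟶ Y) := finite_of_finCell hE₁ fun d hd =>
    hfin d hd.2 (by have := hd.1.2; omega)
  obtain ⟨_, D₁M⟩ := dist_wr D₁ M
  obtain ⟨_, D'M⟩ := dist_wr D' M
  refine finite_of_ptors hM ?_
  -- the injection
  have key : ∀ z : (𝟙_ T)⟦b⟧ ⊗ M ⟶ Y, (p : ℤ) • z = 0 → ∃ g : E₁ ⊗ M ⟶ Y,
      (q₁ ▷ M) ≫ g = ((κ ≫ Ψ) ▷ M) ≫ z := by
    intro z hz
    refine D₁M.desc₂ _ ?_
    obtain ⟨J, _, ι', π', hπ'⟩ := exists_basis hc hW₁'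
    have h1 : v ≫ κ ≫ Ψ = ∑ j, π' j ≫ ι' j ≫ v ≫ κ ≫ Ψ := by
      conv_lhs => rw [← Category.id_comp (v ≫ κ ≫ Ψ), ← hπ', Preadditive.sum_comp]
      exact Finset.sum_congr rfl fun j _ => by simp only [Category.assoc]
    rw [← comp_whiskerRight_assoc, h1, wr_sum, Preadditive.sum_comp]
    refine Finset.sum_eq_zero fun j _ => ?_
    obtain ⟨c, hc1, hc2⟩ := hΨ (ι' j ≫ v ≫ κ)
    have h2 : Φ ((ι' j ≫ v ≫ κ) ≫ w ≫ pr) = 0 := by
      have h3 : (ι' j ≫ v ≫ κ) ≫ w ≫ pr = (ι' j ≫ v) ≫ (κ ≫ w) ≫ pr := by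
        simp only [Category.assoc]
      rw [h3, D'.zero₁₂, zero_comp, comp_zero, map_zero]
    rw [h2] at hc2
    obtain ⟨c', rfl⟩ := (ZMod.intCast_zmod_eq_zero_iff_dvd c p).1 hc2
    have h4 : ι' j ≫ v ≫ κ ≫ Ψ = ((p : ℤ) * c') • 𝟙 _ := by
      rw [← hc1]
      simp only [Category.assoc]
    rw [h4, comp_whiskerRight, wr_zsmul, id_whiskerRight, Category.assoc,
      Preadditive.zsmul_comp, Category.id_comp, mul_comm, mul_smul, hz, smul_zero, comp_zero]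
  choose g hg using key
  refine Finite.of_injective (fun z : {z : (𝟙_ T)⟦b⟧ ⊗ M ⟶ Y // (p : ℤ) • z = 0} =>
    g z.1 z.2) ?_
  intro z z' hzz
  -- the difference
  have h0 : (p : ℤ) • (z.1 - z'.1) = 0 := by rw [smul_sub, z.2, z'.2, sub_zero]
  have h1 : ((κ ≫ Ψ) ▷ M) ≫ (z.1 - z'.1) = 0 := by
    have hzz' : g z.1 z.2 = g z'.1 z'.2 := hzz
    rw [Preadditive.comp_sub, ← hg z.1 z.2, ← hg z'.1 z'.2, hzz', sub_self]
  refine Subtype.ext (sub_eq_zero.1 ?_)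
  generalize z.1 - z'.1 = y at h0 h1
  obtain ⟨f, hf⟩ := D'M.desc₂ ((Ψ ▷ M) ≫ y) (by
    rw [← comp_whiskerRight_assoc]
    exact h1)
  -- the element `x` lifts
  obtain ⟨c, hcx⟩ := D.lift₂ (x ≫ inc) (eq_zero_of_conn (FinCell.sphere (S := {b}) b rfl)
    (c := b) (fun k hk => le_of_eq hk) (finCell_conn hc hC (b + 1) fun k hk => by
      have := hk.2; omega) _)
  obtain ⟨m, hm1, hm2⟩ := hΨ c
  have h2 : c ≫ w ≫ pr = x := by rw [← Category.assoc, hcx, Category.assoc, hr, Category.comp_id]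
  rw [h2] at hm2
  have h3 : m • y = 0 := by
    have h4 : ((c ≫ Ψ) ▷ M) ≫ y = 0 := by
      rw [comp_whiskerRight, Category.assoc, ← hf, ← comp_whiskerRight_assoc, hcx,
        comp_whiskerRight, Category.assoc, hG ((inc ▷ M) ≫ f), comp_zero]
    rw [hm1, wr_zsmul, id_whiskerRight, Preadditive.zsmul_comp, Category.id_comp] at h4
    exact h4
  obtain ⟨a, a', ha⟩ := exists_inv (p := p) (n := m) (by rw [hm2]; exact hΦ)
  have h5 : y = a • (m • y) + a' • ((p : ℤ) • y) := by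
    rw [smul_smul, smul_smul, ← add_smul, ha, one_smul]
  rw [h5, h3, h0, smul_zero, smul_zero, add_zero]

/-- **The step down.** -/
theorem step_down (hc : Conn (T := T) 0 (𝟙_ T)) (hend : ∀ f : 𝟙_ T ⟶ 𝟙_ T, ∃ n : ℤ, f = n • 𝟙 _)
    {p k : ℕ} [Fact p.Prime] {G F M Y : T} {b e : ℤ} (hF : FinCell T (Set.Icc b e) F)
    (inc : G ⟶ F) (pr : F ⟶ G) (hr : inc ≫ pr = 𝟙 G) (hG : ∀ f : G ⊗ M ⟶ Y, f = 0)
    (x : G ⟶ (𝟙_ T)⟦e⟧) (hx : ∀ y, x ≠ (p : ℤ) • y)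
    (hM : ∀ z : (𝟙_ T)⟦e⟧ ⊗ M ⟶ Y, ((p : ℤ) ^ k) • z = 0)
    (hfin : ∀ d, b < d → d < e → Finite ((𝟙_ T)⟦d⟧ ⊗ M ⟶ Y)) :
    Finite ((𝟙_ T)⟦e⟧ ⊗ M ⟶ Y) := by
  -- the top cells
  obtain ⟨B, W, i, w, κ, D, hB, hW⟩ := exists_cut hc (e - 1) hF
  have hW' : FinCell T {e} W := hW.mono fun d hd => by
    have h1 := hd.1.2
    have h2 := hd.2
    exact (by omega : d = e)
  have hE : FinCell T (Set.Icc (b + 1) e) (B⟦(1 : ℤ)⟧) := hB.shift 1 fun d hd =>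
    ⟨by have := hd.1.1; omega, by have := hd.2; omega⟩
  obtain ⟨E₁, W₁, i₁, v, δ₁, D₁, hE₁, hW₁⟩ := exists_cut hc (e - 1) hE
  have hW₁' : FinCell T {e} W₁ := hW₁.mono fun d hd => by
    have h1 := hd.1.2
    have h2 := hd.2
    exact (by omega : d = e)
  -- the functional
  obtain ⟨Φ, hΦ⟩ := exists_dual (p := p) x hx
  obtain ⟨I, _, ι, π, hπ⟩ := exists_basis hc hW'
  have hlift : ∀ i, ∃ n : ℤ, (n : ZMod p) = Φ (inc ≫ w ≫ π i) := fun i =>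
    ZMod.intCast_surjective _
  choose n hn using hlift
  let Ψ : (𝟙_ T)⟦e⟧ ⟶ W := ∑ i, n i • ι i
  have hΨ : ∀ u : W ⟶ (𝟙_ T)⟦e⟧, ∃ c : ℤ, Ψ ≫ u = c • 𝟙 _ ∧ (c : ZMod p) = Φ (inc ≫ w ≫ u) := by
    intro u
    choose m hm using fun i => endo_sph hend e (ι i ≫ u)
    have h1 : u = ∑ i, m i • π i := by
      have h2 : u = (∑ i, π i ≫ ι i) ≫ u := by rw [hπ, Category.id_comp]
      rw [h2, Preadditive.sum_comp]
      refine Finset.sum_congr rfl fun i _ => ?_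
      rw [Category.assoc, hm, Preadditive.comp_zsmul, Category.comp_id]
    refine ⟨∑ i, m i * n i, ?_, ?_⟩
    · change (∑ i, n i • ι i) ≫ u = _
      rw [Preadditive.sum_comp, Finset.sum_smul]
      refine Finset.sum_congr rfl fun i _ => ?_
      rw [Preadditive.zsmul_comp, hm, smul_smul, mul_comm]
    · have h3 : inc ≫ w ≫ u = ∑ i, m i • (inc ≫ w ≫ π i) := by
        conv_lhs => rw [h1]
        rw [Preadditive.comp_sum, Preadditive.comp_sum]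
        refine Finset.sum_congr rfl fun i _ => ?_
        rw [Preadditive.comp_zsmul, Preadditive.comp_zsmul]
      rw [h3, map_sum]
      push_cast
      refine Finset.sum_congr rfl fun i _ => ?_
      rw [map_zsmul, ← hn, zsmul_eq_mul]
  -- the cells between
  have hE₁f : Finite (E₁ ⊗ M ⟶ Y) := finite_of_finCell hE₁ fun d hd =>
    hfin d (by have := hd.1.1; omega) (by have := hd.2; omega)
  obtain ⟨_, D₁M⟩ := dist_wr D₁ M
  -- classes modulo `p`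
  obtain ⟨V, hV, hV'⟩ := finite_values (p := p) (Preadditive.leftComp Y (i₁ ▷ M))
    (Preadditive.leftComp Y ((Ψ ≫ κ) ▷ M)) fun g hg => by
      obtain ⟨g', rfl⟩ := D₁M.desc₂ g hg
      obtain ⟨J, _, ι', π', hπ'⟩ := exists_basis hc hW₁'
      have h1 : Ψ ≫ κ ≫ v = ∑ j, (Ψ ≫ κ ≫ v ≫ π' j) ≫ ι' j := by
        conv_lhs => rw [← Category.comp_id v, ← hπ', Preadditive.comp_sum,
          Preadditive.comp_sum, Preadditive.comp_sum]
        exact Finset.sum_congr rfl fun j _ => by simp only [Category.assoc]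
      have h2 : ∀ j, ∃ c : ℤ, Ψ ≫ κ ≫ v ≫ π' j = ((p : ℤ) * c) • 𝟙 _ := by
        intro j
        obtain ⟨c, hc1, hc2⟩ := hΨ (κ ≫ v ≫ π' j)
        have h3 : Φ (inc ≫ w ≫ κ ≫ v ≫ π' j) = 0 := by
          have h4 : inc ≫ w ≫ κ ≫ v ≫ π' j = inc ≫ (w ≫ κ) ≫ v ≫ π' j := by
            simp only [Category.assoc]
          rw [h4, D.zero₂₃, zero_comp, comp_zero, map_zero]
        rw [h3] at hc2
        obtain ⟨c', rfl⟩ := (ZMod.intCast_zmod_eq_zero_iff_dvd c p).1 hc2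
        exact ⟨c', hc1⟩
      choose c hc' using h2
      refine ⟨∑ j, c j • ((ι' j ▷ M) ≫ g'), ?_⟩
      change ((Ψ ≫ κ) ▷ M) ≫ (v ▷ M) ≫ g' = _
      rw [← comp_whiskerRight_assoc, Category.assoc, h1, wr_sum, Preadditive.sum_comp,
        Finset.smul_sum]
      refine Finset.sum_congr rfl fun j _ => ?_
      rw [hc', Preadditive.zsmul_comp, Category.id_comp, wr_zsmul, Preadditive.zsmul_comp,
        mul_smul]
  refine finite_of_quot hM hV fun a => ?_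
  -- the element `x` extends
  obtain ⟨c, hcx⟩ := D.desc₂ (pr ≫ x) (by
    refine eq_zero_of_conn (c := e - 1) hB (fun k hk => hk.2) ?_ _
    exact (hc.shift e e (by ring)).mono (by omega))
  obtain ⟨m, hm1, hm2⟩ := hΨ c
  have h2 : inc ≫ w ≫ c = x := by rw [hcx, ← Category.assoc, hr, Category.id_comp]
  rw [h2] at hm2
  obtain ⟨r, r', hr'⟩ := exists_inv (p := p) (n := m) (by rw [hm2]; exact hΦ)
  -- divide by `m`
  obtain ⟨g, hg⟩ : ∃ g : B⟦(1 : ℤ)⟧ ⊗ M ⟶ Y, (κ ▷ M) ≫ g = (c ▷ M) ≫ (r • a) := by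
    obtain ⟨_, DM'⟩ := dist_wr D.rot M
    refine DM'.desc₂ _ ?_
    rw [← comp_whiskerRight_assoc, hcx, comp_whiskerRight, Category.assoc,
      hG ((x ▷ M) ≫ (r • a)), comp_zero]
  obtain ⟨s, hs, t, ht⟩ := hV' g
  refine ⟨s, hs, t + r' • a, ?_⟩
  have h3 : ((Ψ ≫ κ) ▷ M) ≫ g = m • (r • a) := by
    rw [comp_whiskerRight, Category.assoc, hg, ← comp_whiskerRight_assoc, hm1, wr_zsmul,
      id_whiskerRight, Preadditive.zsmul_comp, Category.id_comp]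
  have h4 : ((Ψ ≫ κ) ▷ M) ≫ g = s + (p : ℤ) • t := ht
  rw [h3] at h4
  have h5 : a = m • (r • a) + (p : ℤ) • (r' • a) := by
    rw [smul_smul, smul_smul, ← add_smul, mul_comm m, mul_comm (p : ℤ), hr', one_smul]
  calc a = m • (r • a) + (p : ℤ) • (r' • a) := h5
    _ = s + (p : ℤ) • (t + r' • a) := by rw [h4, smul_add, add_assoc]

end Vale.Agent.P261.H321
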