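import Vale.Agent.P261.H321.Cell
import Vale.Agent.P257.H702.Kills

/-!
# P261 (helper321): windows from finite complexes

* `exists_bottom`, `exists_top` : a finite complex killed by a power of `p` is a retract of one
  with a bottom cell (top cell) which is detected modulo `p`;
* `wp_of_finite` : the window property for a finite complex.
-/

open CategoryTheory MonoidalCategory Limits Pretriangulated ZeroObject
open Vale.Agent.P251.T Vale.Agent.P251.S Vale.Agent.P251.H Vale.Agent.P251.M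
  Vale.Agent.P257.H314 Vale.Agent.P257.H702

universe v u

set_option linter.unusedSectionVars false

namespace Vale.Agent.P261.H321

variable {T : Type u} [Category.{v} T] [Preadditive T] [HasZeroObject T]
    [HasShift T ℤ] [∀ n : ℤ, (shiftFunctor T n).Additive] [Pretriangulated T]
    [MonoidalCategory T]

theorem isZero_of_empty {S : Set ℤ} {X : T} (hX : FinCell T S X) (h : ∀ d, d ∉ S) : IsZero X :=
  (IsZero.iff_id_eq_zero X).2 (hX.eq_zero (fun d hd => absurd hd (h d)) (𝟙 X))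

theorem kills_hom {m : ℤ} {X Y : T} (h : Kills m X) (f : X ⟶ Y) : m • f = 0 := by
  have h1 : m • f = (m • 𝟙 X) ≫ f := by simp
  rw [h1, h, zero_comp]

theorem kills_hom' {m : ℤ} {X Y : T} (h : Kills m Y) (f : X ⟶ Y) : m • f = 0 := by
  have h1 : m • f = f ≫ (m • 𝟙 Y) := by simp
  rw [h1, h, comp_zero]

variable [SymmetricCategory T] [TensorTriangulated T] [IsTriangulated T]

/-- a bottom cell which is detected modulo `p` -/
theorem exists_bottom (hc : Conn (T := T) 0 (𝟙_ T)) {p k : ℕ} {G : T} (h0 : ¬ IsZero G)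
    (hk : Kills ((p : ℤ) ^ k) G) {b e : ℤ} (hG : FinCell T (Set.Icc b e) G) :
    ∃ (b' : ℤ) (F : T) (inc : G ⟶ F) (pr : F ⟶ G), b ≤ b' ∧ FinCell T (Set.Icc b' e) F ∧
      inc ≫ pr = 𝟙 G ∧ ∃ x : (𝟙_ T)⟦b'⟧ ⟶ G, ∀ y, x ≠ (p : ℤ) • y := by
  let P : ℤ → Prop := fun c => ∃ (F : T) (inc : G ⟶ F) (pr : F ⟶ G),
    FinCell T (Set.Icc c e) F ∧ inc ≫ pr = 𝟙 G
  have hP : P b := ⟨G, 𝟙 G, 𝟙 G, hG, Category.id_comp _⟩
  have hb : ∀ z, P z → z ≤ e := by
    rintro z ⟨F, inc, pr, hF, hr⟩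
    by_contra hz
    have h1 : IsZero F := isZero_of_empty hF fun d hd => hz (hd.1.trans hd.2)
    refine h0 ((IsZero.iff_id_eq_zero G).2 ?_)
    rw [← hr, h1.eq_of_tgt inc 0, zero_comp]
  obtain ⟨b', ⟨F, inc, pr, hF, hr⟩, hmax⟩ := Int.exists_greatest_of_bdd ⟨e, hb⟩ ⟨b, hP⟩
  refine ⟨b', F, inc, pr, hmax b hP, hF, hr, ?_⟩
  by_contra hx
  push Not at hx
  have h1 : ∀ x : (𝟙_ T)⟦b'⟧ ⟶ G, x = 0 := fun x =>
    eq_zero_of_div (p := p) (k := k) (fun a => kills_hom' hk a) hx x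
  obtain ⟨W, C, w, q, δ, D, hW, hC⟩ := exists_cut hc b' hF
  obtain ⟨r, hr'⟩ := D.desc₂ pr ((hW.mono (S' := {b'}) fun d hd =>
    le_antisymm hd.2 hd.1.1).eq_zero (fun d hd => by
      obtain rfl : d = b' := hd
      exact h1) _)
  have hC' : FinCell T (Set.Icc (b' + 1) e) C := hC.mono fun d hd =>
    Set.mem_Icc.2 ⟨by have := hd.2; omega, hd.1.2⟩
  have h2 := hmax (b' + 1) ⟨C, inc ≫ q, r, hC', by rw [Category.assoc, hr', hr]⟩
  omega

/-- a top cell which is detected modulo `p` -/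
theorem exists_top (hc : Conn (T := T) 0 (𝟙_ T)) {p k : ℕ} {G : T} (h0 : ¬ IsZero G)
    (hk : Kills ((p : ℤ) ^ k) G) {b e : ℤ} (hG : FinCell T (Set.Icc b e) G) :
    ∃ (e' : ℤ) (F : T) (inc : G ⟶ F) (pr : F ⟶ G), e' ≤ e ∧ FinCell T (Set.Icc b e') F ∧
      inc ≫ pr = 𝟙 G ∧ ∃ x : G ⟶ (𝟙_ T)⟦e'⟧, ∀ y, x ≠ (p : ℤ) • y := by
  let P : ℤ → Prop := fun c => ∃ (F : T) (inc : G ⟶ F) (pr : F ⟶ G),
    FinCell T (Set.Icc b c) F ∧ inc ≫ pr = 𝟙 G
  have hP : P e := ⟨G, 𝟙 G, 𝟙 G, hG, Category.id_comp _⟩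
  have hb : ∀ z, P z → b ≤ z := by
    rintro z ⟨F, inc, pr, hF, hr⟩
    by_contra hz
    have h1 : IsZero F := isZero_of_empty hF fun d hd => hz (hd.1.trans hd.2)
    refine h0 ((IsZero.iff_id_eq_zero G).2 ?_)
    rw [← hr, h1.eq_of_tgt inc 0, zero_comp]
  obtain ⟨e', ⟨F, inc, pr, hF, hr⟩, hmin⟩ := Int.exists_least_of_bdd ⟨b, hb⟩ ⟨e, hP⟩
  refine ⟨e', F, inc, pr, hmin e hP, hF, hr, ?_⟩
  by_contra hx
  push Not at hx
  have h1 : ∀ x : G ⟶ (𝟙_ T)⟦e'⟧, x = 0 := fun x =>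
    eq_zero_of_div (p := p) (k := k) (fun a => kills_hom hk a) hx x
  obtain ⟨B, W, i, w, δ, D, hB, hW⟩ := exists_cut hc (e' - 1) hF
  have hW' : FinCell T {e'} W := hW.mono fun d hd => by
    have h1 := hd.1.2
    have h2 := hd.2
    exact (by omega : d = e')
  obtain ⟨s, hs⟩ := D.lift₂ inc (eq_zero_of_basis hc hW' h1 _)
  have hB' : FinCell T (Set.Icc b (e' - 1)) B := hB.mono fun d hd =>
    Set.mem_Icc.2 ⟨hd.1.1, hd.2⟩
  have h2 := hmin (e' - 1) ⟨B, s, i ≫ pr, hB', by rw [← Category.assoc, hs, hr]⟩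
  omega

/-- shifting the coefficients -/
theorem finite_iff_shift (M X : T) {d s c : ℤ} (h : c + d = s) :
    Finite ((𝟙_ T)⟦d⟧ ⊗ M ⟶ X⟦s⟧) ↔ Finite (M ⟶ X⟦c⟧) := by
  have e : ((𝟙_ T)⟦d⟧ ⊗ M ⟶ X⟦s⟧) ≃ (M ⟶ X⟦c⟧) :=
    ((sphTensor d M).homCongr (Iso.refl _)).trans (shiftHom M X d s c h).toEquiv
  exact ⟨fun _ => Finite.of_equiv _ e, fun _ => Finite.of_equiv _ e.symm⟩

/-- **The window property for a finite complex.** -/
theorem wp_of_finite (hc : Conn (T := T) 0 (𝟙_ T))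
    (hend : ∀ f : 𝟙_ T ⟶ 𝟙_ T, ∃ n : ℤ, f = n • 𝟙 _) {p k l : ℕ} [Fact p.Prime] {G M X : T}
    (h0 : ¬ IsZero G) (hk : Kills ((p : ℤ) ^ k) G) (hl : Kills ((p : ℤ) ^ l) M) {b e : ℤ}
    (hG : FinCell T (Set.Icc b e) G) (hV : ∀ (s : ℤ) (f : G ⊗ M ⟶ X⟦s⟧), f = 0) :
    WP X M (e - 1 - b) := by
  have hM : ∀ (d s : ℤ) (z : (𝟙_ T)⟦d⟧ ⊗ M ⟶ X⟦s⟧), ((p : ℤ) ^ l) • z = 0 := fun d s z =>
    kills_hom (hl.tensor _) z
  -- up
  have up : ∀ s : ℤ, (∀ j, 1 ≤ j → j ≤ e - 1 - b → Finite (M ⟶ X⟦s - j⟧)) →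
      Finite (M ⟶ X⟦s⟧) := by
    intro s hs
    obtain ⟨b', F, inc, pr, hb', hF, hr, x, hx⟩ := exists_bottom hc h0 hk hG
    rw [← finite_iff_shift M X (d := b') (s := s + b') (c := s) rfl]
    refine step_up hc hend hF inc pr hr (hV _) x hx (hM _ _) fun d h1 h2 => ?_
    rw [finite_iff_shift M X (d := d) (s := s + b') (c := s - (d - b')) (by ring)]
    exact hs _ (by omega) (by omega)
  -- down
  have down : ∀ s : ℤ, (∀ j, 1 ≤ j → j ≤ e - 1 - b → Finite (M ⟶ X⟦s + j⟧)) →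
      Finite (M ⟶ X⟦s⟧) := by
    intro s hs
    obtain ⟨e', F, inc, pr, he', hF, hr, x, hx⟩ := exists_top hc h0 hk hG
    rw [← finite_iff_shift M X (d := e') (s := s + e') (c := s) rfl]
    refine step_down hc hend hF inc pr hr (hV _) x hx (hM _ _) fun d h1 h2 => ?_
    rw [finite_iff_shift M X (d := d) (s := s + e') (c := s + (e' - d)) (by ring)]
    exact hs _ (by omega) (by omega)
  intro a ha
  have key : ∀ m : ℕ, ∀ s : ℤ, a - m ≤ s → s < a + (e - 1 - b) + m → Finite (M ⟶ X⟦s⟧) := by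
    intro m
    induction m with
    | zero => exact fun s h1 h2 => ha s (by simpa using h1) (by simpa using h2)
    | succ m ih =>
      intro s h1 h2
      push_cast at h1 h2
      by_cases h3 : a - m ≤ s
      · by_cases h4 : s < a + (e - 1 - b) + m
        · exact ih s h3 h4
        · exact up s fun j hj1 hj2 => ih _ (by omega) (by omega)
      · exact down s fun j hj1 hj2 => ih _ (by omega) (by omega)
  intro s
  obtain ⟨m, hm⟩ : ∃ m : ℕ, |s - a| + |e - 1 - b| + 1 = m := ⟨_, (Int.toNat_of_nonneg (by positivity)).symm⟩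
  have h1 := abs_le.1 (le_refl |s - a|)
  have h2 := abs_le.1 (le_refl |e - 1 - b|)
  exact key m s (by omega) (by omega)

end Vale.Agent.P261.H321
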