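import Vale.Agent.P251.M.SpaceCells
import Vale.Agent.P257.H314.FinCell

/-!
# P261 (helper321): suspension spectra of finite cell spaces are finite complexes
-/

open CategoryTheory MonoidalCategory Limits Pretriangulated ZeroObject
open Vale.Agent.P251.T Vale.Agent.P251.S Vale.Agent.P251.H Vale.Agent.P251.G
  Vale.Agent.P251.G.LC Vale.Agent.P251.I Vale.Agent.P251.M Vale.Agent.P257.H314

universe v u

set_option linter.unusedSectionVars false

namespace Vale.Agent.P261.H321

variable {T : Type u} [Category.{v} T] [Preadditive T] [HasZeroObject T]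
    [HasShift T ℤ] [∀ n : ℤ, (shiftFunctor T n).Additive] [Pretriangulated T]
    [MonoidalCategory T] [SymmetricCategory T] [TensorTriangulated T]

theorem finCell_of_fc (F : SpaceFunctor T) {X : LC} (h : FC X) :
    ∃ b e : ℤ, ∀ h' : FC X, FinCell T (Set.Icc b e) (F.S.obj (FCat.mk h')) := by
  induction h with
  | empty => exact ⟨0, 0, fun h' => FinCell.zero _ (F.isZero (X := FCat.mk h')
      (inferInstanceAs (IsEmpty Empty)))⟩
  | sph n =>
    exact ⟨n, n, fun h' => FinCell.of_iso (sphIso F n).symm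
      (FinCell.sphere (n : ℤ) (Set.mem_Icc.2 ⟨le_rfl, le_rfl⟩))⟩
  | @hequiv X Y hX e ih =>
    obtain ⟨b, c, ih⟩ := ih
    refine ⟨b, c, fun h' => ?_⟩
    obtain ⟨f, g, h1, h2⟩ := e
    have : IsIso (F.S.map (FCat.hom f : FCat.mk hX ⟶ FCat.mk h')) :=
      isIso_of_isHEquiv F _ ⟨g, h1, h2⟩
    exact FinCell.of_iso (asIso (F.S.map (FCat.hom f : FCat.mk hX ⟶ FCat.mk h'))) (ih hX)
  | @ext A B i hi hA hC ihA ihC =>
    obtain ⟨b, c, ihA⟩ := ihA
    obtain ⟨b', c', ihC⟩ := ihC
    refine ⟨min b b', max c c', fun h' => ?_⟩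
    obtain ⟨h, D⟩ := exists_cofTriangle F (FCat.hom i : FCat.mk hA ⟶ FCat.mk h') hi
    exact FinCell.ext _ D
      ((ihA hA).mono (Set.Icc_subset_Icc (min_le_left _ _) (le_max_left _ _)))
      ((ihC _).mono (Set.Icc_subset_Icc (min_le_right _ _) (le_max_right _ _)))

end Vale.Agent.P261.H321
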