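import Vale.Agent.P261.H321.Main
import Vale.Agent.P261.H321.CellWin
import Vale.Agent.P261.H321.Space
import Vale.Agent.P251.M.PiZero

/-!
# P261 (helper321): the window criterion for finite complexes
-/

open CategoryTheory MonoidalCategory Limits Pretriangulated MonObj

set_option linter.unusedSectionVars false

namespace Vale.Agent.P261.H321

open Vale.Agent.P251 Vale.Agent.P251.St Vale.Agent.P251.St.SHCat Vale.Agent.P261.St
  Vale.Agent.P257.H314 Vale.Agent.P257.H702

variable {T : SHCat} {p : ℕ}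

theorem finCell_of_cells {b e : ℤ} {X : T.C} (h : Cells b e X) :
    FinCell T.C (Set.Icc b e) X := by
  induction h with
  | zero h => exact FinCell.zero _ ((IsZero.iff_id_eq_zero _).2 h)
  | sph h1 h2 => exact FinCell.sphere _ (Set.mem_Icc.2 ⟨h1, h2⟩)
  | ext hd _ _ ih₁ ih₃ => exact FinCell.ext _ hd ih₁ ih₃

theorem cells_of_finCell {b e : ℤ} {X : T.C} (h : FinCell T.C (Set.Icc b e) X) :
    Cells b e X := by
  induction h with
  | zero X h => exact Cells.zero ((IsZero.iff_id_eq_zero _).1 h)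
  | sphere d hd => exact Cells.sph hd.1 hd.2
  | ext Δ hΔ _ _ ih₁ ih₃ =>
    exact Cells.ext (f := Δ.mor₁) (g := Δ.mor₂) (h := Δ.mor₃) hΔ ih₁ ih₃

/-- maps from acyclic objects to shifts of local objects -/
theorem local_shift {K X V : T.C} (hX : IsLocal K X) (hV : Acyclic K V) (s : ℤ)
    (f : V ⟶ X⟦s⟧) : f = 0 := by
  let e := shiftHomZ V X (-s) s (by omega)
  have h1 : e.symm f = 0 := by
    refine hX _ ?_ _
    rw [acyclic_iff] at hV ⊢
    exact Vale.Agent.P251.S.acyclic_shift hV (-s)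
  rw [← e.apply_symm_apply f, h1, map_zero]

/-- **The window criterion for finite complexes.** -/
theorem window_of_cells [Fact p.Prime] (S : Susp T) {K X : T.C} (hK : (p : ℤ) • 𝟙 K = 0)
    (hX : IsLocal K X) {b e : ℤ} {k : ℕ} {G : T.C} (hG : Cells b e G) (hA : Acyclic K G)
    (hk : zmul ((p : ℤ) ^ k) (ident G) = 0) (h0 : ident G ≠ 0) (a : ℤ)
    (ha : ∀ t, a ≤ t → t < a + (e - b) → FinGen p (Pi t X)) (t : ℤ) : FinGen p (Pi t X) := by
  obtain ⟨M, g, h, hT⟩ := distinguished_cocone_triangle (((p : ℤ) ^ 1) • 𝟙 T.one)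
  have hT' : Triangle.mk ((p : ℤ) • 𝟙 (𝟙_ T.C)) g h ∈ distTriang T.C := by
    rw [pow_one] at hT
    exact hT
  obtain ⟨l, hl⟩ := KillsPow.one hT'
  have hGM : Acyclic K (G ⊗ M) := by
    rw [acyclic_iff] at hA ⊢
    have h1 : IsZero ((K ⊗ G) ⊗ M) := (tensorRight M).map_isZero hA
    exact h1.of_iso (α_ K G M).symm
  have hW : WP X M (e - 1 - b) :=
    wp_of_finite (P251.M.unit_conn S.toSpaceFunctor)
      (P251.M.exists_int_unit S.toSpaceFunctor)
      (fun h => h0 ((IsZero.iff_id_eq_zero _).1 h)) (k := k) hk hl (finCell_of_cells hG)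
      fun s f => local_shift hX hGM s f
  have e' : ∀ s t : ℤ, s + t = 0 → (Pi t X ≃+ (T.one ⟶ X⟦s⟧)) := fun s t h =>
    shiftHomZ T.one X t s h
  have h1 : ∀ s : ℤ, Finite (M ⟶ X⟦s⟧) := by
    refine hW (2 - a - (e - b)) fun s hs1 hs2 => ?_
    refine finite_moore hT ?_ ?_
    · exact FinGen.equiv (ha (-s) (by omega) (by omega)) (e' _ _ (by omega))
    · exact FinGen.equiv (ha (1 - s) (by omega) (by omega)) (e' _ _ (by omega))
  have h2 : PComp p (T.one ⟶ X⟦-t⟧) :=
    (pcomp_of_local hK hX ((𝟙_ T.C)⟦t⟧)).equiv (e' (-t) t (by omega))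
  exact FinGen.equiv (finGen_of_moore one_pos hT h2 (h1 _)) (e' (-t) t (by omega)).symm

end Vale.Agent.P261.H321
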