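import Vale.Agent.P261.H321.FinLoc
import Vale.Agent.P261.H321.All
import Vale.Agent.P261.St.Loc
import Vale.Agent.P241.H125.UBField

/-!
# P261 (helper321): the countability criterion
-/

open CategoryTheory MonoidalCategory Limits Pretriangulated MonObj Cardinal

set_option linter.unusedSectionVars false

namespace Vale.Agent.P261.H321

open Vale.Agent.P251 Vale.Agent.P251.St Vale.Agent.P251.St.SHCat Vale.Agent.P261.St
  Vale.Agent.P257.H314 Vale.Agent.P257.H702 Vale.Agent.P241.St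

variable {T : SHCat} {p : ℕ}

/-! ### finite localizations -/

theorem fl_iff {G Y Z : T.C} (u : Y ⟶ Z) : IsFinLoc G u ↔ FL G u := by
  constructor
  · rintro ⟨h1, h2⟩
    refine ⟨(IsZero.iff_id_eq_zero _).2 h1, fun W hW => ⟨fun a b hab => ?_, fun f => ?_⟩⟩
    · exact (h2 W ((IsZero.iff_id_eq_zero _).1 hW) (u ≫ a)).unique rfl hab.symm
    · obtain ⟨v, hv, -⟩ := h2 W ((IsZero.iff_id_eq_zero _).1 hW) f
      exact ⟨v, hv⟩
  · rintro ⟨h1, h2⟩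
    refine ⟨(IsZero.iff_id_eq_zero _).1 h1, fun W hW f => ?_⟩
    obtain ⟨h3, h4⟩ := h2 W ((IsZero.iff_id_eq_zero _).2 hW)
    obtain ⟨v, hv⟩ := h4 f
    exact ⟨v, hv, fun w hw => h3 (hw.trans hv.symm)⟩

/-! ### finite complexes and Morava `K`-theories -/

theorem hasBas_finCell {K : T.C} [MonObj K] {q : ℕ} (h : P241.KR.GField K q) {S : Set ℤ}
    {F : T.C} (hF : FinCell T.C S F) : P241.KR.HasBas K F := by
  induction hF with
  | zero X hX => exact P241.KR.HasBas.zero hX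
  | sphere d hd => exact P241.KR.HasBas.sphere d
  | ext Δ hΔ _ _ ih₁ ih₃ => exact P241.KR.HasBas.mid h hΔ ih₁ ih₃

/-- local objects receive no maps from objects killed by `G` -/
theorem orth_of_local (S : Susp T) [Fact p.Prime] {n : ℕ} {K : RingA T}
    (hK : IsMoravaK S p n K) {S' : Set ℤ} {G X : T.C} (hG : FinCell T.C S' G)
    (hA : ¬ Acyclic K.obj G) (hX : IsLocal K.obj X) : Orth G X := by
  obtain ⟨q, hq⟩ := P241.H435.gfAll n K hK
  intro W hW f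
  refine hX W ?_ f
  rw [acyclic_iff]
  refine P241.H125.acyclic_of_gfield (hasBas_finCell hq hG) (fun h => hA ?_) hW
  rw [acyclic_iff]
  exact h

/-! ### the cofibre of `p` -/

theorem wl_zsmul {X Y : T.C} (M : T.C) (n : ℤ) (f : X ⟶ Y) : M ◁ (n • f) = n • (M ◁ f) :=
  map_zsmul ((tensorLeft M).mapAddHom (X := X) (Y := Y)) n f

section moore

variable {X C : T.C} {k : ℕ} {g : T.one ⟶ C} {h : C ⟶ (T.one)⟦(1 : ℤ)⟧}
  (hT : Triangle.mk (((p : ℤ) ^ k) • 𝟙 T.one) g h ∈ distTriang T.C)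

include hT

/-- finite homotopy modulo `p` implies finite generation -/
theorem finGen_of_coeff [Fact p.Prime] (hk : 0 < k) {t : ℤ}
    (hc : PComp p ((𝟙_ T.C)⟦t⟧ ⟶ X)) (hf : Finite ((𝟙_ T.C)⟦t⟧ ⟶ X ⊗ C)) :
    FinGen p ((𝟙_ T.C)⟦t⟧ ⟶ X) := by
  have D := P251.S.dist_whiskerLeft X hT
  obtain ⟨r, e, he⟩ := exists_reps (p := p) hk
    (Preadditive.rightComp ((𝟙_ T.C)⟦t⟧) ((ρ_ X).inv ≫ (X ◁ g))) fun a ha => by
      have ha' : (a ≫ (ρ_ X).inv) ≫ (X ◁ g) = 0 := by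
        rw [Category.assoc]
        exact ha
      obtain ⟨z, hz⟩ := Triangle.coyoneda_exact₂ _ D (a ≫ (ρ_ X).inv) ha'
      change (𝟙_ T.C)⟦t⟧ ⟶ X ⊗ 𝟙_ T.C at z
      have hz' : a ≫ (ρ_ X).inv = z ≫ (X ◁ (((p : ℤ) ^ k) • 𝟙 (𝟙_ T.C))) := hz
      rw [wl_zsmul, MonoidalCategory.whiskerLeft_id, Preadditive.comp_zsmul,
        Category.comp_id] at hz'
      refine ⟨z ≫ (ρ_ X).hom, ?_⟩
      rw [← Preadditive.zsmul_comp, ← hz', Category.assoc, Iso.inv_hom_id, Category.comp_id]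
  exact ⟨hc.module, @PComp.finite_of_reps p _ _ _ hc hc.module r e he⟩

/-- finite generation implies finite homotopy modulo `p` -/
theorem finite_coeff [Fact p.Prime] {t : ℤ} (h0 : FinGen p ((𝟙_ T.C)⟦t⟧ ⟶ X))
    (h1 : FinGen p ((𝟙_ T.C)⟦t - 1⟧ ⟶ X)) : Finite ((𝟙_ T.C)⟦t⟧ ⟶ X ⊗ C) := by
  have D := P251.S.dist_whiskerLeft X hT
  let δ : X ⊗ C ⟶ (X ⊗ 𝟙_ T.C)⟦(1 : ℤ)⟧ :=
    (X ◁ h) ≫ ((tensorLeft X).commShiftIso (1 : ℤ)).hom.app (𝟙_ T.C)
  have D' : Triangle.mk (X ◁ (((p : ℤ) ^ k) • 𝟙 (𝟙_ T.C))) (X ◁ g) δ ∈ distTriang T.C := D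
  have hp : X ◁ (((p : ℤ) ^ k) • 𝟙 (𝟙_ T.C)) = ((p : ℤ) ^ k) • 𝟙 (X ⊗ 𝟙_ T.C) := by
    rw [wl_zsmul, MonoidalCategory.whiskerLeft_id]
  rw [hp] at D'
  have h0' : FinGen p ((𝟙_ T.C)⟦t⟧ ⟶ X ⊗ 𝟙_ T.C) := FinGen.equiv h0
    { toFun := fun f => f ≫ (ρ_ X).inv
      invFun := fun f => f ≫ (ρ_ X).hom
      left_inv := fun f => by simp
      right_inv := fun f => by simp
      map_add' := fun f g => by simp }
  have h1' : FinGen p ((𝟙_ T.C)⟦t⟧ ⟶ (X ⊗ 𝟙_ T.C)⟦(1 : ℤ)⟧) := by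
    have e1 := shiftHomZ (𝟙_ T.C) X (t - 1) (1 - t) (by ring)
    have e2 := shiftHom (𝟙_ T.C) X t 1 (1 - t) (by ring)
    have h2 : FinGen p ((𝟙_ T.C)⟦t⟧ ⟶ X⟦(1 : ℤ)⟧) := FinGen.equiv h1 (e1.trans e2.symm)
    refine FinGen.equiv h2
      { toFun := fun f => f ≫ (ρ_ X).inv⟦(1 : ℤ)⟧'
        invFun := fun f => f ≫ (ρ_ X).hom⟦(1 : ℤ)⟧'
        left_inv := fun f => by simp [← Functor.map_comp]
        right_inv := fun f => by simp [← Functor.map_comp]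
        map_add' := fun f g => by simp }
  obtain ⟨m0, f0⟩ := h0'
  obtain ⟨m1, f1⟩ := h1'
  have r1 : Finite (Preadditive.rightComp ((𝟙_ T.C)⟦t⟧) (X ◁ g)).range := by
    refine @finite_range p _ _ _ m0 f0 _ _ k _ fun a => ?_
    have h2 : (((p : ℤ) ^ k) • 𝟙 (X ⊗ 𝟙_ T.C)) ≫ (X ◁ g) = 0 :=
      comp_distTriang_mor_zero₁₂ _ D'
    rw [Preadditive.zsmul_comp, Category.id_comp] at h2
    change (((p : ℤ) ^ k) • a) ≫ (X ◁ g) = 0
    rw [Preadditive.zsmul_comp, ← Preadditive.comp_zsmul]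
    erw [h2]
    exact comp_zero
  have r2 : Finite (Preadditive.rightComp ((𝟙_ T.C)⟦t⟧) δ).range := by
    have h2 := @finite_torsion p _ _ _ m1 f1 k
    refine Finite.of_injective (fun y : (Preadditive.rightComp ((𝟙_ T.C)⟦t⟧) δ).range =>
      (⟨y.1, ?_⟩ : {a : (𝟙_ T.C)⟦t⟧ ⟶ (X ⊗ 𝟙_ T.C)⟦(1 : ℤ)⟧ // ((p : ℤ) ^ k) • a = 0})) ?_
    · obtain ⟨_, z, rfl⟩ := y
      have h3 : δ ≫ (((p : ℤ) ^ k) • 𝟙 (X ⊗ 𝟙_ T.C))⟦(1 : ℤ)⟧' = 0 :=
        comp_distTriang_mor_zero₃₁ _ D'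
      rw [Functor.map_zsmul, CategoryTheory.Functor.map_id, Preadditive.comp_zsmul,
        Category.comp_id] at h3
      change ((p : ℤ) ^ k) • (z ≫ δ) = 0
      rw [← Preadditive.comp_zsmul, h3, comp_zero]
    · intro a b hab
      exact Subtype.ext (congrArg (fun c => c.1) hab)
  refine finite_of_exact (Preadditive.rightComp ((𝟙_ T.C)⟦t⟧) (X ◁ g))
    (Preadditive.rightComp ((𝟙_ T.C)⟦t⟧) δ) fun y hy => ?_
  obtain ⟨z, hz⟩ := Triangle.coyoneda_exact₃ _ D' y hy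
  exact ⟨z, hz.symm⟩

end moore

/-- finite type implies finiteness for torsion complexes -/
theorem fn_of_finGen [Fact p.Prime] {X G : T.C} {k : ℕ} {S' : Set ℤ}
    (hG : FinCell T.C S' G) (hk : ((p : ℤ) ^ k) • 𝟙 G = 0) (h : ∀ t, FinGen p (Pi t X)) :
    Fn G X := by
  obtain ⟨M, g, δ, hT⟩ := distinguished_cocone_triangle (((p : ℤ) ^ k) • 𝟙 T.one)
  have e : ∀ s t : ℤ, s + t = 0 → (Pi t X ≃+ (T.one ⟶ X⟦s⟧)) := fun s t h =>
    shiftHomZ T.one X t s h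
  have hM : Fn M X := fun s => finite_moore hT (FinGen.equiv (h (-s)) (e _ _ (by ring)))
    (FinGen.equiv (h (1 - s)) (e _ _ (by ring)))
  have hGM : Fn (G ⊗ M) X := hM.cellL hG
  -- `G` is a retract of `G ⊗ M`
  have D := P251.S.dist_whiskerLeft G hT
  obtain ⟨r, hr⟩ := Triangle.yoneda_exact₂ _ D (ρ_ G).hom (by
    change (G ◁ (((p : ℤ) ^ k) • 𝟙 (𝟙_ T.C))) ≫ (ρ_ G).hom = 0
    rw [wl_zsmul, MonoidalCategory.whiskerLeft_id, Preadditive.zsmul_comp, Category.id_comp]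
    have h1 : ((p : ℤ) ^ k) • (ρ_ G).hom = (ρ_ G).hom ≫ (((p : ℤ) ^ k) • 𝟙 G) := by simp
    rw [h1, hk, comp_zero])
  change G ⊗ M ⟶ G at r
  have hr' : (ρ_ G).hom = (G ◁ g) ≫ r := hr
  intro s
  have hf := hGM s
  refine Finite.of_surjective (fun y : G ⊗ M ⟶ X⟦s⟧ => (ρ_ G).inv ≫ (G ◁ g) ≫ y) fun x => ?_
  refine ⟨r ≫ x, ?_⟩
  dsimp only
  rw [← Category.assoc (G ◁ g), ← hr', Iso.inv_hom_id_assoc]

/-- the groups of maps from the suspensions of `G` -/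
theorem fn_ten_iff {G X : T.C} (s : ℤ) :
    Finite (Hom (ten (sphere T s) G) X) ↔ Finite (G ⟶ X⟦-s⟧) := by
  have e : ((𝟙_ T.C)⟦s⟧ ⊗ G ⟶ X) ≃ (G ⟶ X⟦-s⟧) :=
    ((P251.S.sphTensor s G).homCongr (Iso.refl X)).trans
      (shiftHomZ G X s (-s) (by ring)).toEquiv
  exact ⟨fun _ => Finite.of_equiv _ e, fun _ => Finite.of_equiv _ e.symm⟩

theorem fn_of_ten {G X : T.C} (h : ∀ s : ℤ, Finite (Hom (ten (sphere T s) G) X)) : Fn G X := by
  intro s
  have h1 := (fn_ten_iff (-s)).1 (h (-s))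
  rwa [neg_neg] at h1

/-- **The dichotomy**, final form. -/
theorem count_main (S : Susp T) [Fact p.Prime] {n : ℕ} {K : RingA T}
    (hK : IsMoravaK S p n K) {b e b' e' : ℤ} {G X Z F : T.C} (hG : Cells b e G)
    (hA : ¬ Acyclic K.obj G) (hX : IsLocal K.obj X)
    (h : ∀ s : ℤ, Finite (Hom (ten (sphere T s) G) X)) {u : Hom X Z} (hu : IsFinLoc G u)
    (hF : Cells b' e' F) (t : ℤ) :
    (Finite (Pi t (ten X F)) ∨ #(Pi t (ten X F)) = 𝔠) ∧
    (Countable (Pi t (ten Z F)) ∨ #(Pi t (ten Z F)) = 𝔠) ∧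
    (Countable (Pi t (ten Z F)) → Finite (Pi t (ten X F))) ∧
    ((∀ s : ℤ, Finite (Pi s (ten X F))) → Countable (Pi t (ten Z F))) :=
  fl_main_coeff (finCell_of_cells hG) (orth_of_local S hK (finCell_of_cells hG) hA hX)
    (fn_of_ten h) ((fl_iff u).1 hu) (finCell_of_cells hF) t

/-- the cofibre of `p` is a finite complex -/
theorem cells_moore {C : T.C} {m : ℤ} {g : T.one ⟶ C} {h : C ⟶ (T.one)⟦(1 : ℤ)⟧}
    (hT : Triangle.mk (m • 𝟙 T.one) g h ∈ distTriang T.C) : Cells 0 1 C := by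
  refine cells_of_finCell (FinCell.ext₃ (S := {0}) _ hT
    (FinCell.unit (Set.mem_Icc.2 ⟨le_rfl, zero_le_one⟩)) (FinCell.unit rfl) fun d hd => ?_)
  obtain rfl : d = 0 := hd
  exact Set.mem_Icc.2 ⟨zero_le_one, le_rfl⟩

/-- **The countability criterion.** -/
theorem count_criterion (S : Susp T) [Fact p.Prime] {n : ℕ} (hn : 1 ≤ n) {K : RingA T}
    (hK : IsMoravaK S p n K) {b e b' e' : ℤ} {k k' : ℕ} {G G' X Z C : T.C} (hG : Cells b e G)
    (hk : zmul ((p : ℤ) ^ k) (ident G) = 0) (hA : ¬ Acyclic K.obj G) (hG' : Cells b' e' G')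
    (hk' : zmul ((p : ℤ) ^ k') (ident G') = 0) (hA' : Acyclic K.obj G') (h0' : ident G' ≠ 0)
    (hX : IsLocal K.obj X) {u : Hom X Z} (hu : IsFinLoc G u) {g : Hom T.one C}
    {h : Hom C (sus T.one)} (hC : Dist (zmul p (ident T.one)) g h) (a c : ℤ) :
    (∀ t : ℤ, FinGen p (Pi t X)) ↔
      (∀ s, a ≤ s → s < a + (e' - b') → Finite (Hom (ten (sphere T s) G) X)) ∧
      ∀ t, c ≤ t → t < c + (e' - b') → Countable (Pi t (ten Z C)) := by
  have hC1 : Triangle.mk (((p : ℤ) ^ 1) • 𝟙 T.one) g h ∈ distTriang T.C := by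
    rw [pow_one]
    exact hC
  have hKc := char_of_moravaK S hn hK
  constructor
  · intro hfg
    have hfn := fn_of_finGen (finCell_of_cells hG) hk hfg
    have hs : ∀ s : ℤ, Finite (Hom (ten (sphere T s) G) X) := fun s =>
      (fn_ten_iff s).2 (hfn (-s))
    refine ⟨fun s _ _ => hs s, fun t _ _ => ?_⟩
    exact (count_main S hK hG hA hX hs hu (cells_moore hC) t).2.2.2 fun s =>
      finite_coeff hC1 (hfg s) (hfg (s - 1))
  · rintro ⟨h1, h2⟩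
    -- all the groups of `G` are finite
    have hGG : Acyclic K.obj (G' ⊗ G) := by
      rw [acyclic_iff] at hA' ⊢
      have h3 : IsZero ((K.obj ⊗ G') ⊗ G) := (tensorRight G).map_isZero hA'
      exact h3.of_iso (α_ K.obj G' G).symm
    have hW : WP X G (e' - 1 - b') :=
      wp_of_finite (P251.M.unit_conn S.toSpaceFunctor)
        (P251.M.exists_int_unit S.toSpaceFunctor)
        (fun h => h0' ((IsZero.iff_id_eq_zero _).1 h)) (k := k') hk' (l := k) hk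
        (finCell_of_cells hG') fun s f => local_shift hX hGG s f
    have hfn : Fn G X := by
      refine hW (2 - a - (e' - b')) fun s hs1 hs2 => ?_
      have h3 := (fn_ten_iff (-s)).1 (h1 (-s) (by omega) (by omega))
      rwa [neg_neg] at h3
    have hs : ∀ s : ℤ, Finite (Hom (ten (sphere T s) G) X) := fun s =>
      (fn_ten_iff s).2 (hfn (-s))
    refine fun t => window_of_cells S hKc hX hG' hA' hk' h0' c (fun t ht1 ht2 => ?_) t
    exact finGen_of_coeff hC1 one_pos (pcomp_of_local hKc hX _)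
      ((count_main S hK hG hA hX hs hu (cells_moore hC) t).2.2.1 (h2 t ht1 ht2))

end Vale.Agent.P261.H321
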