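import Vale.Agent.P261.H321.CountMain

/-!
# P261 (helper321): finite torsion complexes of type `n`
-/

open CategoryTheory MonoidalCategory Limits Pretriangulated MonObj

set_option linter.unusedSectionVars false

namespace Vale.Agent.P261.H321

open Vale.Agent.P251 Vale.Agent.P251.St Vale.Agent.P251.St.SHCat Vale.Agent.P261.St
  Vale.Agent.P257.H314 Vale.Agent.P257.H702 Vale.Agent.P241.St

variable {T : SHCat} {p : ℕ}

/-- the tensor product with the cofibre of `p` kills only objects on which `p` is invertible -/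
theorem div_of_tensor {Y M : T.C} {g : T.one ⟶ M} {h : M ⟶ (T.one)⟦(1 : ℤ)⟧}
    (hT : Triangle.mk ((p : ℤ) • 𝟙 T.one) g h ∈ distTriang T.C) (h0 : IsZero (Y ⊗ M)) :
    ∃ r : Y ⟶ Y, 𝟙 Y = (p : ℤ) • r := by
  have hd := P251.S.dist_whiskerLeft Y hT
  have h6 : (ρ_ Y).inv ≫ (Y ◁ g) = 0 := h0.eq_of_tgt _ _
  obtain ⟨s, hs⟩ := Triangle.coyoneda_exact₂ _ hd (ρ_ Y).inv h6
  change Y ⟶ Y ⊗ 𝟙_ T.C at s
  have hs' : (ρ_ Y).inv = s ≫ (Y ◁ ((p : ℤ) • 𝟙 (𝟙_ T.C))) := hs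
  refine ⟨s ≫ (ρ_ Y).hom, ?_⟩
  rw [wl_zsmul, MonoidalCategory.whiskerLeft_id] at hs'
  rw [← Iso.inv_hom_id (ρ_ Y), hs']
  simp

/-- **Finite torsion complexes of type `n`.** -/
theorem exists_type (S : Susp T) [hp : Fact p.Prime] {K : ℕ → RingA T}
    (hK : ∀ i, IsMoravaK S p i (K i)) {n : ℕ} (hn : 1 ≤ n) :
    ∃ (b e : ℤ) (k : ℕ) (G : T.C), Cells b e G ∧ zmul ((p : ℤ) ^ k) (ident G) = 0 ∧
      (∀ i < n, Acyclic (K i).obj G) ∧ ¬ Acyclic (K n).obj G := by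
  obtain ⟨Y, hY, h1, h2⟩ := P241.H435.typeStmt_of_young (P241.Final.youngStmt S p) K hK n
  obtain ⟨b, e, hF⟩ := finCell_of_fc S.toSpaceFunctor (fc_toLC hY)
  have hF' : FinCell T.C (Set.Icc b e) (S.obj Y) := hF (fc_toLC hY)
  obtain ⟨M, g, h, hT⟩ := distinguished_cocone_triangle ((p : ℤ) • 𝟙 (𝟙_ T.C))
  obtain ⟨l, hl⟩ := KillsPow.one hT
  have hM : FinCell T.C (Set.Icc 0 1) M := by
    refine FinCell.ext₃ (S := {0}) _ hT (FinCell.unit (Set.mem_Icc.2 ⟨le_rfl, zero_le_one⟩))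
      (FinCell.unit rfl) fun d hd => ?_
    obtain rfl : d = 0 := hd
    exact Set.mem_Icc.2 ⟨zero_le_one, le_rfl⟩
  refine ⟨b, e + 1, l, S.obj Y ⊗ M, cells_of_finCell (hF'.tensor hM fun d hd d' hd' => ?_),
    hl.tensor _, fun i hi => ?_, fun h0 => h2 ?_⟩
  · exact Set.mem_Icc.2 ⟨by have := hd.1; have := hd'.1; omega,
      by have := hd.2; have := hd'.2; omega⟩
  · have h1' := h1 i hi
    rw [acyclic_iff] at h1' ⊢
    have h5 : IsZero (((K i).obj ⊗ S.obj Y) ⊗ M) := (tensorRight M).map_isZero h1'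
    exact h5.of_iso (α_ (K i).obj (S.obj Y) M).symm
  · -- `p` is zero and invertible on `K ⊗ Y`
    have hchar := char_of_moravaK (p := p) S hn (hK n)
    rw [acyclic_iff] at h0
    have h3 : IsZero (((K n).obj ⊗ S.obj Y) ⊗ M) :=
      IsZero.of_iso h0 (α_ (K n).obj (S.obj Y) M)
    obtain ⟨r, hr⟩ := div_of_tensor hT h3
    have h4 : (p : ℤ) • 𝟙 ((K n).obj ⊗ S.obj Y) = 0 := by
      have h5 : (p : ℤ) • 𝟙 ((K n).obj ⊗ S.obj Y) = ((p : ℤ) • 𝟙 (K n).obj) ▷ S.obj Y := by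
        rw [wr_zsmul, id_whiskerRight]
      rw [h5, hchar, wr_zero]
    change 𝟙 ((K n).obj ⊗ S.obj Y) = 0
    have h6 : 𝟙 ((K n).obj ⊗ S.obj Y) = ((p : ℤ) • 𝟙 ((K n).obj ⊗ S.obj Y)) ≫ r := by
      rw [Preadditive.zsmul_comp, Category.id_comp]
      exact hr
    rw [h6, h4, zero_comp]

end Vale.Agent.P261.H321
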