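import Vale.Agent.P257.H319.TBase

/-!
# P261 (helper321): cutting finite complexes

* `exists_cut` : a finite complex is an extension of its cells of dimension `> c` by its cells
  of dimension `≤ c`;
* `exists_basis` : a finite complex with cells in one dimension has a dual basis.
-/

open CategoryTheory MonoidalCategory Limits Pretriangulated ZeroObject
open Vale.Agent.P251.T Vale.Agent.P251.S Vale.Agent.P251.H Vale.Agent.P251.M
  Vale.Agent.P257.H314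

universe v u

set_option linter.unusedSectionVars false

namespace Vale.Agent.P261.H321

variable {T : Type u} [Category.{v} T] [Preadditive T] [HasZeroObject T]
    [HasShift T ℤ] [∀ n : ℤ, (shiftFunctor T n).Additive] [Pretriangulated T]
    [MonoidalCategory T]

/-- connectivity of a complex with cells of dimension `≥ m` -/
theorem finCell_conn (hc : Conn (T := T) 0 (𝟙_ T)) {S : Set ℤ} {X : T} (hX : FinCell T S X)
    (m : ℤ) (hs : ∀ k ∈ S, m ≤ k) : Conn m X := by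
  induction hX with
  | zero X hX => exact Conn.zero hX
  | sphere k hk => exact (hc.shift k k (by ring)).mono (hs k hk)
  | ext Δ hΔ _ _ ih₁ ih₃ => exact Conn.ext Δ hΔ ih₁ ih₃

/-- maps from cells of dimension `≤ c` to connective objects vanish -/
theorem eq_zero_of_conn {S : Set ℤ} {X Y : T} {c : ℤ} (hX : FinCell T S X)
    (hs : ∀ k ∈ S, k ≤ c) (hY : Conn (c + 1) Y) (f : X ⟶ Y) : f = 0 :=
  hX.eq_zero (fun d hd g => hY d (by have := hs d hd; omega) g) f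

theorem finCell_dist {S : Set ℤ} {X Y Z : T} {f : X ⟶ Y} {g : Y ⟶ Z} {h : Z ⟶ X⟦(1 : ℤ)⟧}
    (D : Dist f g h) (hX : FinCell T S X) (hZ : FinCell T S Z) : FinCell T S Y :=
  FinCell.ext _ D hX hZ

/-- **Cutting a finite complex.** -/
theorem exists_cut [IsTriangulated T] (hc : Conn (T := T) 0 (𝟙_ T)) (c : ℤ)
    {S : Set ℤ} {X : T} (h : FinCell T S X) :
    ∃ (B C : T) (i : B ⟶ X) (q : X ⟶ C) (w : C ⟶ B⟦(1 : ℤ)⟧), Dist i q w ∧
      FinCell T {d | d ∈ S ∧ d ≤ c} B ∧ FinCell T {d | d ∈ S ∧ c < d} C := by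
  induction h with
  | zero X hX =>
    exact ⟨X, 0, 𝟙 X, 0, 0, contractible_distinguished X, FinCell.zero X hX,
      FinCell.zero _ (isZero_zero T)⟩
  | sphere k hk =>
    by_cases h : k ≤ c
    · exact ⟨_, 0, 𝟙 _, 0, 0, contractible_distinguished _, FinCell.sphere k ⟨hk, h⟩,
        FinCell.zero _ (isZero_zero T)⟩
    · exact ⟨0, _, 0, 𝟙 _, 0, contractible_distinguished₁ _, FinCell.zero _ (isZero_zero T),
        FinCell.sphere k ⟨hk, not_le.mp h⟩⟩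
  | ext Δ hΔ h₁ h₃ ih₁ ih₃ =>
    obtain ⟨B₁, C₁, i₁, q₁, w₁, D₁, hB₁, hC₁⟩ := ih₁
    obtain ⟨B₃, C₃, i₃, q₃, w₃, D₃, hB₃, hC₃⟩ := ih₃
    have DΔ : Dist Δ.mor₁ Δ.mor₂ Δ.mor₃ := hΔ
    obtain ⟨W, v, w, DW⟩ := exists_cone (i₁ ≫ Δ.mor₁)
    obtain ⟨m₁, m₃, -, -, -, -, O₁⟩ := exists_octa rfl D₁ DΔ DW
    have hcC : Conn (c + 1 + 1) (C₁⟦(1 : ℤ)⟧) :=
      (finCell_conn hc hC₁ (c + 1) fun k hk => by have := hk.2; omega).shift 1 _ rfl
    obtain ⟨l, hl⟩ := O₁.lift₃ i₃ (eq_zero_of_conn hB₃ (fun k hk => hk.2)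
      (hcC.mono (by omega)) _)
    obtain ⟨C, n, e, DC⟩ := exists_cone l
    obtain ⟨n₁, n₃, -, -, -, -, O₂⟩ := exists_octa hl DC O₁.rot D₃
    obtain ⟨_, _, O₂'⟩ := Dist.invRot' O₂
    have hC : FinCell T {d | d ∈ S ∧ c < d} C :=
      finCell_dist O₂' (FinCell.of_iso ((shiftShiftNeg C₁ (1 : ℤ)).symm) hC₁) hC₃
    obtain ⟨E, r, r', DE⟩ := exists_cone (v ≫ n)
    obtain ⟨_, _, -, -, -, -, O₃⟩ := exists_octa rfl DW.rot DC.rot DE
    obtain ⟨_, _, DE'⟩ := Dist.invRot' DE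
    have hE : FinCell T {d | d ∈ S ∧ d ≤ c} (E⟦(-1 : ℤ)⟧) :=
      FinCell.ext _ (Triangle.shift_distinguished _ O₃ (-1))
        (FinCell.of_iso ((shiftShiftNeg B₁ (1 : ℤ)).symm) hB₁)
        (FinCell.of_iso ((shiftShiftNeg B₃ (1 : ℤ)).symm) hB₃)
    exact ⟨_, C, _, _, _, DE', hE, hC⟩

/-- **Dual bases.** -/
theorem exists_basis (hc : Conn (T := T) 0 (𝟙_ T)) {b : ℤ} {W : T} (hW : FinCell T {b} W) :
    ∃ (I : Type) (_ : Fintype I) (ι : I → ((𝟙_ T)⟦b⟧ ⟶ W)) (π : I → (W ⟶ (𝟙_ T)⟦b⟧)),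
      ∑ i, π i ≫ ι i = 𝟙 W := by
  induction hW with
  | zero X hX => exact ⟨Empty, inferInstance, Empty.elim, Empty.elim, hX.eq_of_src _ _⟩
  | sphere d hd =>
    obtain rfl : d = b := hd
    exact ⟨Unit, inferInstance, fun _ => 𝟙 _, fun _ => 𝟙 _, by simp⟩
  | ext Δ hΔ h₁ h₃ ih₁ ih₃ =>
    obtain ⟨I₁, _, ι₁, π₁, e₁⟩ := ih₁
    obtain ⟨I₃, _, ι₃, π₃, e₃⟩ := ih₃
    have D : Dist Δ.mor₁ Δ.mor₂ Δ.mor₃ := hΔ
    have h0 : Δ.mor₃ = 0 := by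
      refine eq_zero_of_conn (c := b) h₃ (fun k hk => le_of_eq hk) ?_ _
      exact (finCell_conn hc h₁ b fun k hk => ge_of_eq hk).shift 1 _ rfl
    obtain ⟨s, hs⟩ := D.lift₃ (𝟙 _) (by rw [h0, comp_zero])
    obtain ⟨r, hr⟩ := D.lift₂ (𝟙 _ - Δ.mor₂ ≫ s) (by
      rw [Preadditive.sub_comp, Category.assoc, hs]
      simp)
    refine ⟨I₁ ⊕ I₃, inferInstance, Sum.elim (fun i => ι₁ i ≫ Δ.mor₁) (fun i => ι₃ i ≫ s),
      Sum.elim (fun i => r ≫ π₁ i) (fun i => Δ.mor₂ ≫ π₃ i), ?_⟩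
    rw [Fintype.sum_sum_type]
    simp only [Sum.elim_inl, Sum.elim_inr, Category.assoc]
    have h1 : ∑ x, r ≫ π₁ x ≫ ι₁ x ≫ Δ.mor₁ = r ≫ Δ.mor₁ := by
      have : r ≫ (∑ i, π₁ i ≫ ι₁ i) ≫ Δ.mor₁ = r ≫ Δ.mor₁ := by rw [e₁, Category.id_comp]
      rw [← this, Preadditive.sum_comp, Preadditive.comp_sum]
      simp only [Category.assoc]
    have h2 : ∑ x, Δ.mor₂ ≫ π₃ x ≫ ι₃ x ≫ s = Δ.mor₂ ≫ s := by
      have : Δ.mor₂ ≫ (∑ i, π₃ i ≫ ι₃ i) ≫ s = Δ.mor₂ ≫ s := by rw [e₃, Category.id_comp]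
      rw [← this, Preadditive.sum_comp, Preadditive.comp_sum]
      simp only [Category.assoc]
    rw [h1, h2, hr]
    abel

end Vale.Agent.P261.H321
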