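import Vale.Agent.P261.H321.FnCl
import Vale.Agent.P261.H321.Card
import Mathlib.GroupTheory.Coset.Card

/-!
# P261 (helper321): the countability dichotomy

`G` a finite complex, `X` an object with `Hom (W, X) = 0` for all `W` with `W ⊗ G = 0`, such that
the groups `G ⟶ X⟦s⟧` are finite; `Z` the finite localization of `X` away from `G`.

* `dichotomy` : `M ⟶ X` is finite or has the cardinality of the continuum;
* `loc_dichotomy` : the homotopy groups of `Z` are countable or have this cardinality;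
* `finite_of_countable` : if `π_t Z` is countable then `π_t X` is finite;
* `countable_of_finite` : if all `π_t X` are finite then all `π_t Z` are countable.
-/

open CategoryTheory MonoidalCategory Limits Pretriangulated Cardinal
open Vale.Agent.P251.T Vale.Agent.P251.S Vale.Agent.P251.H Vale.Agent.P257.H314

universe v u

set_option linter.unusedSectionVars false

namespace Vale.Agent.P261.H321

section gen

variable {T : Type u} [Category.{v} T] [Preadditive T] [HasZeroObject T]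
    [HasShift T ℤ] [∀ n : ℤ, (shiftFunctor T n).Additive] [Pretriangulated T]
    [MonoidalCategory T] [SymmetricCategory T] [TensorTriangulated T]

/-- there are no maps to `X` from objects which are killed by `G` -/
def Orth (G X : T) : Prop := ∀ W : T, IsZero (W ⊗ G) → ∀ f : W ⟶ X, f = 0

namespace Orth

variable {G X : T}

theorem of_iso (h : Orth G X) {X' : T} (e : X ≅ X') : Orth G X' := fun W hW f => by
  rw [← cancel_mono e.inv, h W hW (f ≫ e.inv), zero_comp]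

theorem zeroShift {W : T} (hW : IsZero (W ⊗ G)) (n : ℤ) : IsZero (W⟦n⟧ ⊗ G) :=
  ((shiftFunctor T n).map_isZero hW).of_iso (((tensorRight G).commShiftIso n).app W)

theorem shift (h : Orth G X) (n : ℤ) : Orth G (X⟦n⟧) := fun W hW f => by
  let e := shiftHomZ W X (-n) n (by ring)
  have h1 : e.symm f = 0 := h _ (zeroShift hW (-n)) _
  rw [← e.apply_symm_apply f, h1, map_zero]

theorem of_isZero (hX : IsZero X) : Orth G X := fun _ _ f => hX.eq_of_tgt f 0

theorem mid {A B C : T} {f : A ⟶ B} {g : B ⟶ C} {k : C ⟶ A⟦(1 : ℤ)⟧} (D : Dist f g k)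
    (h₁ : Orth G A) (h₃ : Orth G C) : Orth G B := fun W hW x => by
  obtain ⟨y, hy⟩ := D.lift₂ x (h₃ W hW _)
  rw [← hy, h₁ W hW y, zero_comp]

theorem third {A B C : T} {f : A ⟶ B} {g : B ⟶ C} {k : C ⟶ A⟦(1 : ℤ)⟧} (D : Dist f g k)
    (h₁ : Orth G A) (h₂ : Orth G B) : Orth G C := fun W hW x => by
  obtain ⟨y, hy⟩ := D.lift₃ x ((h₁.shift 1) W hW _)
  rw [← hy, h₂ W hW y, zero_comp]

theorem cell {S : Set ℤ} {F : T} (hF : FinCell T S F) (h : Orth G X) : Orth G (F ⊗ X) := by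
  induction hF with
  | zero Y hY => exact of_isZero ((tensorRight X).map_isZero hY)
  | sphere d hd => exact (h.shift d).of_iso (sphTensor d X).symm
  | ext Δ hΔ _ _ ih₁ ih₃ =>
    have D : Dist Δ.mor₁ Δ.mor₂ Δ.mor₃ := hΔ
    obtain ⟨h', D'⟩ := dist_wr D X
    exact mid D' ih₁ ih₃

theorem dual (P : JD G) (h : Orth G X) : Orth G (P.D ⊗ X) := fun W hW f => by
  let _ := P.pair
  have h1 : IsZero ((G ⊗ W) ⊗ G) :=
    ((tensorLeft G).map_isZero hW).of_iso (α_ G W G)
  have h2 : ∀ a b : G ⊗ W ⟶ X, a = b := fun a b => by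
    rw [← sub_eq_zero]
    exact h _ h1 _
  exact (tensorLeftHomEquiv W P.D G X).symm.injective (h2 _ _)

theorem jR (P : JD G) {S : Set ℤ} (hG : FinCell T S G) (h : Orth G X) :
    Orth G (P.J ⊗ X) := by
  obtain ⟨δ, D⟩ := P.exists_dist X
  exact third D ((cell hG (h.dual P)).of_iso (α_ G P.D X).symm) h

end Orth

theorem Fn.jG {G V X : T} (P : JD G) {S : Set ℤ} (hG : FinCell T S G) (h : Fn (G ⊗ V) X) :
    Fn (G ⊗ (P.J ⊗ V)) X :=
  (Fn.jL P hG h).isoL ((α_ P.J G V).symm ≪≫ whiskerRightIso (β_ P.J G) V ≪≫ α_ G P.J V)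

theorem Fn.evG {G V X : T} (P : JD G) {S : Set ℤ} (hG : FinCell T S G) (h : Fn (G ⊗ V) X) :
    Fn ((G ⊗ P.D) ⊗ V) X :=
  (Fn.dualL P hG h).isoL ((α_ P.D G V).symm ≪≫ whiskerRightIso (β_ P.D G) V)

end gen

variable {T : Type u} [Category.{0} T] [Preadditive T] [HasZeroObject T]
    [HasShift T ℤ] [∀ n : ℤ, (shiftFunctor T n).Additive] [Pretriangulated T]
    [MonoidalCategory T] [SymmetricCategory T] [TensorTriangulated T] [MonoidalClosed T]
    [HasCoproducts.{0} T]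

/-- **The dichotomy.** -/
theorem dichotomy {G X M : T} (P : JD G) {S : Set ℤ} (hG : FinCell T S G) (hX : Orth G X)
    (h : Fn (G ⊗ M) X) : Finite (M ⟶ X) ∨ #(M ⟶ X) = 𝔠 := by
  have hk : ∀ k, Fn (G ⊗ seqJ P.J M k) X := by
    intro k
    induction k with
    | zero => exact h
    | succ k ih => exact ih.jG P hG
  obtain ⟨U⟩ := exists_tel (mapJ P.j M)
  have hU := P.tel_zero U
  refine Tow.dichotomy (A := fun k => (seqJ P.J M k ⟶ X))
    (f := fun k => Preadditive.leftComp X (mapJ P.j M k)) ⟨fun k => ?_, fun k => ?_, ?_, ?_⟩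
  · obtain ⟨δ, D⟩ := P.exists_dist (seqJ P.J M k)
    have hf : Finite (((G ⊗ P.D) ⊗ seqJ P.J M k)⟦(1 : ℤ)⟧ ⟶ X) :=
      (((hk k).evG P hG).shiftL 1).finite
    refine (Set.finite_range fun z : ((G ⊗ P.D) ⊗ seqJ P.J M k)⟦(1 : ℤ)⟧ ⟶ X => δ ≫ z).subset ?_
    intro x hx
    obtain ⟨z, hz⟩ := D.desc₃ x hx
    exact ⟨z, hz⟩
  · obtain ⟨δ, D⟩ := P.exists_dist (seqJ P.J M k)
    have hf : Finite ((G ⊗ P.D) ⊗ seqJ P.J M k ⟶ X) := ((hk k).evG P hG).finite
    let φ : (seqJ P.J M k ⟶ X) → ((G ⊗ P.D) ⊗ seqJ P.J M k ⟶ X) :=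
      fun a => P.ev (seqJ P.J M k) ≫ a
    choose s hs using fun y : Set.range φ => y.2
    refine ⟨Set.range s, Set.finite_range s, fun a => ⟨s ⟨φ a, a, rfl⟩, ⟨_, rfl⟩, ?_⟩⟩
    obtain ⟨y, hy⟩ := D.desc₂ (a - s ⟨φ a, a, rfl⟩) (by
      rw [Preadditive.comp_sub, sub_eq_zero]
      exact (hs ⟨φ a, a, rfl⟩).symm)
    refine ⟨y, ?_⟩
    change a = _ + tj P.j _ ≫ y
    rw [hy]
    abel
  · exact milnor_zero U (hX _ hU)
  · exact milnor_sol U (hX _ (Orth.zeroShift hU (-1)))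

section count

/-- a group with a homomorphism with countable kernel -/
theorem mk_le_of_ker {A B : Type} [AddCommGroup A] [AddCommGroup B] (φ : A →+ B)
    (h : {a | φ a = 0}.Countable) : #A ≤ #B * ℵ₀ := by
  have e : A ≃ (A ⧸ φ.ker) × φ.ker := AddSubgroup.addGroupEquivQuotientProdAddSubgroup
  rw [Cardinal.mk_congr e, Cardinal.mk_prod, Cardinal.lift_id, Cardinal.lift_id]
  refine mul_le_mul' ?_ ?_
  · refine Cardinal.mk_le_of_injective (f := QuotientAddGroup.kerLift φ) ?_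
    exact QuotientAddGroup.kerLift_injective φ
  · have : Countable φ.ker := h.to_subtype
    exact Cardinal.mk_le_aleph0

variable [IsTriangulated T] [HasProducts.{0} T] [StableCat T]

/-- maps from spheres to the telescope, kernel -/
theorem countable_ker {G W : T} (P : JD G) {X : T}
    (hW : IsCpt W) (h : ∀ k, Fn W ((G ⊗ P.D) ⊗ seqJ P.J X k)) (U : Tel (mapJ P.j X)) (n : ℕ) :
    {g : W ⟶ seqJ P.J X n | g ≫ U.ι n = 0}.Countable := by
  have h1 : ∀ k, {g : W ⟶ seqJ P.J X k | g ≫ mapJ P.j X k = 0}.Finite := by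
    intro k
    obtain ⟨δ, D⟩ := P.exists_dist (seqJ P.J X k)
    have hf := (h k).finite
    refine (Set.finite_range fun z : W ⟶ (G ⊗ P.D) ⊗ seqJ P.J X k => z ≫ P.ev _).subset ?_
    intro x hx
    obtain ⟨z, hz⟩ := D.lift₂ x hx
    exact ⟨z, hz⟩
  have h2 : ∀ k, {g : W ⟶ seqJ P.J X n | g ≫ trT (mapJ P.j X) n k = 0}.Finite := by
    intro k
    induction k with
    | zero =>
      refine (Set.finite_singleton 0).subset fun g hg => ?_
      have hg' : g ≫ 𝟙 _ = 0 := hg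
      rw [Category.comp_id] at hg'
      exact hg'
    | succ k ih =>
      refine ((h1 (n + k)).preimage' (f := fun g : W ⟶ seqJ P.J X n =>
        g ≫ trT (mapJ P.j X) n k) fun y _ => ?_).subset fun g hg => ?_
      · by_cases hy : ∃ z : W ⟶ seqJ P.J X n, z ≫ trT (mapJ P.j X) n k = y
        · obtain ⟨z, rfl⟩ := hy
          refine (ih.image fun w => w + z).subset fun x hx => ⟨x - z, ?_, sub_add_cancel x z⟩
          change (x - z) ≫ _ = 0
          rw [Preadditive.sub_comp, sub_eq_zero]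
          exact hx
        · exact Set.finite_empty.subset fun x hx => hy ⟨x, hx⟩
      · change (g ≫ trT (mapJ P.j X) n k) ≫ mapJ P.j X (n + k) = 0
        rw [Category.assoc]
        exact hg
  refine (Set.countable_iUnion fun k => (h2 k).countable).mono fun g hg => ?_
  obtain ⟨k, hk⟩ := U.exists_eq_zero hW g hg
  exact Set.mem_iUnion.2 ⟨k, hk⟩

variable {G X : T} (P : JD G) {S : Set ℤ} (hG : FinCell T S G)

include hG

theorem fn_seq {A : T} (h : Fn A X) (k : ℕ) : Fn A (seqJ P.J X k) := by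
  induction k with
  | zero => exact h
  | succ k ih => exact Fn.jR P hG ih

theorem fn_ev (h : Fn G X) (t : ℤ) : Fn ((𝟙_ T)⟦t⟧) ((G ⊗ P.D) ⊗ X) := by
  have h1 : Fn (𝟙_ T) (P.D ⊗ X) := Fn.of_dualR P (h.isoL (ρ_ G).symm)
  exact ((h1.cellR hG).isoR (α_ G P.D X).symm).shiftL t

theorem orth_seq (h : Orth G X) (k : ℕ) : Orth G (seqJ P.J X k) := by
  induction k with
  | zero => exact h
  | succ k ih => exact ih.jR P hG

/-- the dichotomy for the homotopy groups of all stages -/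
theorem seq_dichotomy (hX : Orth G X) (h : Fn G X) (k : ℕ) (t : ℤ) :
    Finite ((𝟙_ T)⟦t⟧ ⟶ seqJ P.J X k) ∨ #((𝟙_ T)⟦t⟧ ⟶ seqJ P.J X k) = 𝔠 :=
  dichotomy P hG (orth_seq P hG hX k)
    (((fn_seq P hG h k).shiftL t).isoL (tensorSph t G).symm)

theorem tel_le (h : Fn G X) (U : Tel (mapJ P.j X)) (k : ℕ) (t : ℤ) :
    #((𝟙_ T)⟦t⟧ ⟶ seqJ P.J X k) ≤ #((𝟙_ T)⟦t⟧ ⟶ U.obj) * ℵ₀ :=
  mk_le_of_ker (Preadditive.rightComp _ (U.ι k)) (countable_ker P
    (fun _ Y f => compact_sum Y (isSphere_one_shift t) f)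
    (fun k => fn_ev P hG (fn_seq P hG h k) t) U k)

/-- the groups of the telescope, all stages finite -/
theorem tel_countable (U : Tel (mapJ P.j X)) (t : ℤ)
    (h : ∀ k, Finite ((𝟙_ T)⟦t⟧ ⟶ seqJ P.J X k)) : Countable ((𝟙_ T)⟦t⟧ ⟶ U.obj) := by
  have h1 : Function.Surjective
      fun x : Σ k, ((𝟙_ T)⟦t⟧ ⟶ seqJ P.J X k) => x.2 ≫ U.ι x.1 := by
    intro y
    obtain ⟨k, a, ha⟩ := U.exists_factor
      (fun _ Y f => compact_sum Y (isSphere_one_shift t) f) y
    exact ⟨⟨k, a⟩, ha⟩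
  exact h1.countable

/-- **the dichotomy for the localization** -/
theorem tel_dichotomy (hX : Orth G X) (h : Fn G X) (U : Tel (mapJ P.j X)) (t : ℤ) :
    Countable ((𝟙_ T)⟦t⟧ ⟶ U.obj) ∨ #((𝟙_ T)⟦t⟧ ⟶ U.obj) = 𝔠 := by
  by_cases hf : ∀ k, Finite ((𝟙_ T)⟦t⟧ ⟶ seqJ P.J X k)
  · exact Or.inl (tel_countable P hG U t hf)
  · right
    push Not at hf
    obtain ⟨k, hk⟩ := hf
    have h1 : #((𝟙_ T)⟦t⟧ ⟶ seqJ P.J X k) = 𝔠 :=
      (seq_dichotomy P hG hX h k t).resolve_left (not_finite_iff_infinite.2 hk)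
    have h2 := tel_le P hG h U k t
    rw [h1] at h2
    apply le_antisymm
    · have h3 : Function.Surjective
          fun x : Σ k, ((𝟙_ T)⟦t⟧ ⟶ seqJ P.J X k) => x.2 ≫ U.ι x.1 := by
        intro y
        obtain ⟨k, a, ha⟩ := U.exists_factor
          (fun _ Y f => compact_sum Y (isSphere_one_shift t) f) y
        exact ⟨⟨k, a⟩, ha⟩
      refine (Cardinal.mk_le_of_surjective h3).trans ?_
      rw [Cardinal.mk_sigma]
      refine (Cardinal.sum_le_sum _ (fun _ => 𝔠) fun k => ?_).trans ?_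
      · rcases seq_dichotomy P hG hX h k t with h4 | h4
        · exact (Cardinal.lt_aleph0_of_finite _).le.trans Cardinal.aleph0_le_continuum
        · exact h4.le
      · simp
    · by_contra h5
      rw [not_le] at h5
      have h6 : #((𝟙_ T)⟦t⟧ ⟶ U.obj) * ℵ₀ < 𝔠 :=
        Cardinal.mul_lt_of_lt Cardinal.aleph0_le_continuum h5 Cardinal.aleph0_lt_continuum
      exact absurd h2 (not_le.2 h6)

/-- **countable localization implies finite homotopy** -/
theorem tel_finite (hX : Orth G X) (h : Fn G X) (U : Tel (mapJ P.j X)) (t : ℤ)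
    (hc : Countable ((𝟙_ T)⟦t⟧ ⟶ U.obj)) : Finite ((𝟙_ T)⟦t⟧ ⟶ X) := by
  refine (seq_dichotomy P hG hX h 0 t).resolve_right fun h1 => ?_
  have h2 := tel_le P hG h U 0 t
  rw [h1] at h2
  have h3 : #((𝟙_ T)⟦t⟧ ⟶ U.obj) * ℵ₀ < 𝔠 :=
    Cardinal.mul_lt_of_lt Cardinal.aleph0_le_continuum
      (Cardinal.mk_le_aleph0.trans_lt Cardinal.aleph0_lt_continuum) Cardinal.aleph0_lt_continuum
  exact absurd h2 (not_le.2 h3)

/-- finite homotopy implies countable localization -/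
theorem tel_countable' (h : Fn (𝟙_ T) X) (U : Tel (mapJ P.j X)) (t : ℤ) :
    Countable ((𝟙_ T)⟦t⟧ ⟶ U.obj) :=
  tel_countable P hG U t fun k => ((fn_seq P hG h k).shiftL t).finite

end count

end Vale.Agent.P261.H321
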