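import Vale.Agent.P261.H321.Dicho

/-!
# P261 (helper321): finite localizations

* `FL G u` : `u : Y ⟶ Z` is the finite localization of `Y` away from `G`;
* `FL.tensor` : it is compatible with the tensor product with dualizable objects;
* `fl_main` : the countability dichotomy for finite localizations.
-/

open CategoryTheory MonoidalCategory Limits Pretriangulated Cardinal
open Vale.Agent.P251.T Vale.Agent.P251.S Vale.Agent.P251.H Vale.Agent.P257.H314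
open Vale.Agent.P093.N2 (Dz)

universe v u

set_option linter.unusedSectionVars false

namespace Vale.Agent.P261.H321

section gen

variable {T : Type u} [Category.{v} T] [Preadditive T] [HasZeroObject T]
    [HasShift T ℤ] [∀ n : ℤ, (shiftFunctor T n).Additive] [Pretriangulated T]
    [MonoidalCategory T] [SymmetricCategory T] [TensorTriangulated T]

/-- `u` is the initial map from `Y` to an object which is killed by `G` -/
structure FL (G : T) {Y Z : T} (u : Y ⟶ Z) : Prop where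
  zero : IsZero (Z ⊗ G)
  univ : ∀ W : T, IsZero (W ⊗ G) → Function.Bijective fun v : Z ⟶ W => u ≫ v

namespace FL

variable {G Y Z Z' : T} {u : Y ⟶ Z} {u' : Y ⟶ Z'}

/-- uniqueness -/
theorem nonempty_iso (h : FL G u) (h' : FL G u') : Nonempty (Z ≅ Z') := by
  obtain ⟨a, ha⟩ := (h.univ Z' h'.zero).2 u'
  obtain ⟨b, hb⟩ := (h'.univ Z h.zero).2 u
  dsimp only at ha hb
  refine ⟨⟨a, b, (h.univ Z h.zero).1 ?_, (h'.univ Z' h'.zero).1 ?_⟩⟩
  · change u ≫ a ≫ b = u ≫ 𝟙 Z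
    rw [← Category.assoc, ha, hb, Category.comp_id]
  · change u' ≫ b ≫ a = u' ≫ 𝟙 Z'
    rw [← Category.assoc, hb, ha, Category.comp_id]

theorem comp_iso {Z₁ : T} (h : FL G u) (e : Z ≅ Z₁) : FL G (u ≫ e.hom) where
  zero := h.zero.of_iso (whiskerRightIso e.symm G)
  univ W hW := by
    constructor
    · intro a b hab
      dsimp only at hab
      rw [Category.assoc, Category.assoc] at hab
      have h1 := (h.univ W hW).1 hab
      exact (cancel_epi e.hom).1 h1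
    · intro y
      obtain ⟨v, hv⟩ := (h.univ W hW).2 y
      exact ⟨e.inv ≫ v, by simpa using hv⟩

theorem iso_comp {Y₁ : T} (h : FL G u) (e : Y₁ ≅ Y) : FL G (e.hom ≫ u) where
  zero := h.zero
  univ W hW := by
    constructor
    · intro a b hab
      dsimp only at hab
      rw [Category.assoc, Category.assoc] at hab
      exact (h.univ W hW).1 ((cancel_epi e.hom).1 hab)
    · intro y
      obtain ⟨v, hv⟩ := (h.univ W hW).2 (e.inv ≫ y)
      dsimp only at hv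
      refine ⟨v, ?_⟩
      dsimp only
      rw [Category.assoc, hv, Iso.hom_inv_id_assoc]

/-- tensor products with dualizable objects -/
theorem tensor (h : FL G u) {F : T} (hF : Dz F) : FL G (F ◁ u) := by
  obtain ⟨L, ⟨_⟩⟩ := hF
  let _ := BraidedCategory.exactPairing_swap L F
  refine ⟨((tensorLeft F).map_isZero h.zero).of_iso (α_ F Z G), fun W hW => ?_⟩
  have hW' : IsZero ((L ⊗ W) ⊗ G) := ((tensorLeft L).map_isZero hW).of_iso (α_ L W G)
  have h1 := h.univ _ hW'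
  -- `F ⊗ Y ⟶ W` is `Y ⟶ L ⊗ W`
  have h3 : (fun v : F ⊗ Z ⟶ W => F ◁ u ≫ v) =
      fun v => (tensorLeftHomEquiv Y L F W).symm (u ≫ tensorLeftHomEquiv Z L F W v) := by
    funext v
    rw [tensorLeftHomEquiv_symm_naturality, Equiv.symm_apply_apply]
  rw [h3]
  exact (tensorLeftHomEquiv Y L F W).symm.bijective.comp
    (h1.comp (tensorLeftHomEquiv Z L F W).bijective)

end FL

variable [MonoidalClosed T] [HasCoproducts.{0} T]

theorem JD.fl {G : T} (P : JD G) {Y : T} (U : Tel (mapJ P.j Y)) :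
    FL G (show Y ⟶ U.obj from U.ι 0) :=
  ⟨P.tel_zero U, fun _ hW => P.tel_univ U hW⟩

/-- finite complexes are dualizable -/
theorem dz_of_finCell {S : Set ℤ} {F : T} (hF : FinCell T S F) : Dz F := by
  induction hF with
  | zero X hX => exact Dz.of_isZero hX
  | sphere d hd => exact Dz.sphere d
  | ext Δ hΔ _ _ ih₁ ih₃ =>
    have D : Dist Δ.mor₁ Δ.mor₂ Δ.mor₃ := hΔ
    exact Dz.ext D ih₁ ih₃

/-- finite localizations exist -/
theorem exists_fl {G : T} {S : Set ℤ} (hG : FinCell T S G) (Y : T) :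
    ∃ (Z : T) (u : Y ⟶ Z), FL G u := by
  obtain ⟨P⟩ := exists_jd (dz_of_finCell hG)
  obtain ⟨U⟩ := exists_tel (mapJ P.j Y)
  exact ⟨U.obj, U.ι 0, P.fl U⟩

end gen

variable {T : Type u} [Category.{0} T] [Preadditive T] [HasZeroObject T]
    [HasShift T ℤ] [∀ n : ℤ, (shiftFunctor T n).Additive] [Pretriangulated T] [IsTriangulated T]
    [MonoidalCategory T] [SymmetricCategory T] [TensorTriangulated T] [MonoidalClosed T]
    [HasCoproducts.{0} T] [HasProducts.{0} T] [StableCat T]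

/-- **The countability dichotomy.** -/
theorem fl_main {G X Z : T} {S : Set ℤ} (hG : FinCell T S G) (hX : Orth G X) (h : Fn G X)
    {u : X ⟶ Z} (hu : FL G u) (t : ℤ) :
    (Finite ((𝟙_ T)⟦t⟧ ⟶ X) ∨ #((𝟙_ T)⟦t⟧ ⟶ X) = 𝔠) ∧
    (Countable ((𝟙_ T)⟦t⟧ ⟶ Z) ∨ #((𝟙_ T)⟦t⟧ ⟶ Z) = 𝔠) ∧
    (Countable ((𝟙_ T)⟦t⟧ ⟶ Z) → Finite ((𝟙_ T)⟦t⟧ ⟶ X)) ∧
    ((∀ s : ℤ, Finite ((𝟙_ T)⟦s⟧ ⟶ X)) → Countable ((𝟙_ T)⟦t⟧ ⟶ Z)) := by
  obtain ⟨P⟩ := exists_jd (dz_of_finCell hG)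
  obtain ⟨U⟩ := exists_tel (mapJ P.j X)
  obtain ⟨e⟩ := hu.nonempty_iso (P.fl U)
  let ε : ((𝟙_ T)⟦t⟧ ⟶ Z) ≃ ((𝟙_ T)⟦t⟧ ⟶ U.obj) := (Iso.refl _).homCongr e
  have h1 := tel_dichotomy P hG hX h U t
  refine ⟨seq_dichotomy P hG hX h 0 t, ?_, fun hc => ?_, fun hf => ?_⟩
  · rcases h1 with h1 | h1
    · exact Or.inl (Countable.of_equiv _ ε.symm)
    · exact Or.inr ((Cardinal.mk_congr ε).trans h1)
  · exact tel_finite P hG hX h U t (Countable.of_equiv _ ε)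
  · have h2 : Fn (𝟙_ T) X := fn_iff.2 hf
    have h3 := tel_countable' P hG h2 U t
    exact Countable.of_equiv _ ε.symm

/-- the same with coefficients -/
theorem fl_main_coeff {G X Z F : T} {S S' : Set ℤ} (hG : FinCell T S G) (hX : Orth G X)
    (h : Fn G X) {u : X ⟶ Z} (hu : FL G u) (hF : FinCell T S' F) (t : ℤ) :
    (Finite ((𝟙_ T)⟦t⟧ ⟶ X ⊗ F) ∨ #((𝟙_ T)⟦t⟧ ⟶ X ⊗ F) = 𝔠) ∧
    (Countable ((𝟙_ T)⟦t⟧ ⟶ Z ⊗ F) ∨ #((𝟙_ T)⟦t⟧ ⟶ Z ⊗ F) = 𝔠) ∧
    (Countable ((𝟙_ T)⟦t⟧ ⟶ Z ⊗ F) → Finite ((𝟙_ T)⟦t⟧ ⟶ X ⊗ F)) ∧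
    ((∀ s : ℤ, Finite ((𝟙_ T)⟦s⟧ ⟶ X ⊗ F)) → Countable ((𝟙_ T)⟦t⟧ ⟶ Z ⊗ F)) := by
  have hX' : Orth G (X ⊗ F) := (hX.cell hF).of_iso (β_ F X)
  have h' : Fn G (X ⊗ F) := (h.cellR hF).isoR (β_ F X)
  have hu' : FL G ((β_ X F).hom ≫ F ◁ u ≫ (β_ F Z).hom) := by
    have h1 := ((hu.tensor (dz_of_finCell hF)).comp_iso (β_ F Z)).iso_comp (β_ X F)
    exact h1
  exact fl_main hG hX' h' hu' t

end Vale.Agent.P261.H321
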