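import Vale.Agent.P261.H321.JTow
import Vale.Agent.P261.H321.Cell
import Mathlib.CategoryTheory.Monoidal.Rigid.Braided

/-!
# P261 (helper321): finiteness of groups of maps, closure properties

`Fn A B` : all the groups `A ⟶ B⟦s⟧` are finite.
-/

open CategoryTheory MonoidalCategory Limits Pretriangulated
open Vale.Agent.P251.T Vale.Agent.P251.S Vale.Agent.P251.H Vale.Agent.P257.H314

universe v u

set_option linter.unusedSectionVars false

namespace Vale.Agent.P261.H321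

variable {T : Type u} [Category.{v} T] [Preadditive T] [HasZeroObject T]
    [HasShift T ℤ] [∀ n : ℤ, (shiftFunctor T n).Additive] [Pretriangulated T]

/-- all the groups of maps of degree `s` are finite -/
def Fn (A B : T) : Prop := ∀ s : ℤ, Finite (A ⟶ B⟦s⟧)

theorem fn_iff {A B : T} : Fn A B ↔ ∀ s : ℤ, Finite (A⟦s⟧ ⟶ B) := by
  constructor
  · intro h s
    have := h (-s)
    exact Finite.of_equiv _ (shiftHomZ A B s (-s) (by ring)).symm.toEquiv
  · intro h s
    have := h (-s)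
    exact Finite.of_equiv _ (shiftHomZ A B (-s) s (by ring)).toEquiv

namespace Fn

variable {A A' B B' : T}

theorem finite (h : Fn A B) : Finite (A ⟶ B) :=
  have := h 0
  Finite.of_equiv _ ((Iso.refl A).homCongr ((shiftFunctorZero T ℤ).app B))

theorem isoL (h : Fn A B) (e : A ≅ A') : Fn A' B := fun s =>
  have := h s
  Finite.of_equiv _ (e.homCongr (Iso.refl (B⟦s⟧)))

theorem isoR (h : Fn A B) (e : B ≅ B') : Fn A B' := fun s =>
  have := h s
  Finite.of_equiv _ ((Iso.refl A).homCongr ((shiftFunctor T s).mapIso e))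

theorem shiftL (h : Fn A B) (n : ℤ) : Fn (A⟦n⟧) B := fun s =>
  have := h (s - n)
  Finite.of_equiv _ (shiftHom A B n s (s - n) (by ring)).symm.toEquiv

theorem shiftR (h : Fn A B) (n : ℤ) : Fn A (B⟦n⟧) := fun s =>
  have := h (n + s)
  Finite.of_equiv _ ((Iso.refl A).homCongr ((shiftFunctorAdd T n s).app B))

theorem zeroL (h : IsZero A) (B : T) : Fn A B := fun s =>
  have : Subsingleton (A ⟶ B⟦s⟧) := ⟨fun f g => h.eq_of_src f g⟩
  inferInstance

theorem zeroR (A : T) (h : IsZero B) : Fn A B := fun s =>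
  have h' : IsZero (B⟦s⟧) := (shiftFunctor T s).map_isZero h
  have : Subsingleton (A ⟶ B⟦s⟧) := ⟨fun f g => h'.eq_of_tgt f g⟩
  inferInstance

variable {X Y Z : T} {f : X ⟶ Y} {g : Y ⟶ Z} {k : Z ⟶ X⟦(1 : ℤ)⟧}

theorem midL (D : Dist f g k) (h₁ : Fn X B) (h₃ : Fn Z B) : Fn Y B := fun s =>
  have := h₁ s
  have := h₃ s
  finite_mid D _

theorem thirdL (D : Dist f g k) (h₁ : Fn X B) (h₂ : Fn Y B) : Fn Z B := fun s =>
  have := h₂ s
  have := h₁.shiftL 1 s
  finite_third D _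

theorem midR (D : Dist f g k) (h₁ : Fn A X) (h₃ : Fn A Z) : Fn A Y := by
  rw [fn_iff] at h₁ h₃ ⊢
  intro s
  have := h₁ s
  have := h₃ s
  refine finite_of_exact' (Preadditive.rightComp (A⟦s⟧) f) (Preadditive.rightComp (A⟦s⟧) g)
    fun y hy => D.lift₂ y hy

theorem thirdR (D : Dist f g k) (h₁ : Fn A X) (h₂ : Fn A Y) : Fn A Z := by
  have h₁' := h₁.shiftR 1
  rw [fn_iff] at h₁' h₂ ⊢
  intro s
  have := h₁' s
  have := h₂ s
  refine finite_of_exact' (Preadditive.rightComp (A⟦s⟧) g) (Preadditive.rightComp (A⟦s⟧) k)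
    fun y hy => D.lift₃ y hy

variable [MonoidalCategory T] [SymmetricCategory T] [TensorTriangulated T]

theorem cellL {S : Set ℤ} {F : T} (hF : FinCell T S F) (h : Fn A B) : Fn (F ⊗ A) B := by
  induction hF with
  | zero X hX => exact zeroL ((tensorRight A).map_isZero hX) B
  | sphere d hd => exact (h.shiftL d).isoL (sphTensor d A).symm
  | ext Δ hΔ _ _ ih₁ ih₃ =>
    have D : Dist Δ.mor₁ Δ.mor₂ Δ.mor₃ := hΔ
    obtain ⟨h', D'⟩ := dist_wr D A
    exact midL D' ih₁ ih₃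

theorem cellR {S : Set ℤ} {F : T} (hF : FinCell T S F) (h : Fn A B) : Fn A (F ⊗ B) := by
  induction hF with
  | zero X hX => exact zeroR A ((tensorRight B).map_isZero hX)
  | sphere d hd => exact (h.shiftR d).isoR (sphTensor d B).symm
  | ext Δ hΔ _ _ ih₁ ih₃ =>
    have D : Dist Δ.mor₁ Δ.mor₂ Δ.mor₃ := hΔ
    obtain ⟨h', D'⟩ := dist_wr D B
    exact midR D' ih₁ ih₃

/-- `X ⊗ Y⟦n⟧ ≅ (X ⊗ Y)⟦n⟧` -/
noncomputable def shTen (X Y : T) (n : ℤ) : X ⊗ Y⟦n⟧ ≅ (X ⊗ Y)⟦n⟧ :=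
  ((tensorLeft X).commShiftIso n).app Y

section dual

variable {G : T} (P : JD G)

include P

theorem of_dualR (h : Fn (G ⊗ A) B) : Fn A (P.D ⊗ B) := fun s =>
  letI := P.pair
  have := h s
  Finite.of_equiv _ ((tensorLeftHomEquiv A P.D G (B⟦s⟧)).trans
    ((Iso.refl A).homCongr (shTen P.D B s)))

theorem of_dualL (h : Fn A (G ⊗ B)) : Fn (P.D ⊗ A) B := fun s =>
  letI := P.pair
  letI := BraidedCategory.exactPairing_swap P.D G
  have := h s
  Finite.of_equiv _ ((tensorLeftHomEquiv A G P.D (B⟦s⟧)).trans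
    ((Iso.refl A).homCongr (shTen G B s))).symm

variable {S : Set ℤ} (hG : FinCell T S G)

include hG

theorem dualL (h : Fn A B) : Fn (P.D ⊗ A) B := of_dualL P (cellR hG h)

theorem dualR (h : Fn A B) : Fn A (P.D ⊗ B) := of_dualR P (cellL hG h)

theorem evL (h : Fn A B) : Fn ((G ⊗ P.D) ⊗ A) B :=
  ((dualL P hG h).cellL hG).isoL (α_ G P.D A).symm

theorem evR (h : Fn A B) : Fn A ((G ⊗ P.D) ⊗ B) :=
  ((dualR P hG h).cellR hG).isoR (α_ G P.D B).symm

theorem jL (h : Fn A B) : Fn (P.J ⊗ A) B := by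
  obtain ⟨δ, D⟩ := P.exists_dist A
  exact thirdL D (evL P hG h) h

theorem jR (h : Fn A B) : Fn A (P.J ⊗ B) := by
  obtain ⟨δ, D⟩ := P.exists_dist B
  exact thirdR D (evR P hG h) h

end dual

end Fn

end Vale.Agent.P261.H321
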