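import Vale.Agent.P251.S.Local
import Vale.Agent.P251.S.Coprod
import Vale.Agent.P251.H.Dist
import Vale.Agent.P093.N2.ChiDual

/-!
# P261 (helper321): the cofibre of the evaluation map

* `milnor_zero`, `milnor_sol`, `tel_bij` : maps out of telescopes;
* `JD G` : a dual `D` of `G` and the cofibre `𝟙 ⟶ J` of the evaluation `G ⊗ D ⟶ 𝟙`;
* `seqJ V` : the sequence `V ⟶ J ⊗ V ⟶ J ⊗ (J ⊗ V) ⟶ …`;
* `JD.tel_zero` : its telescope `L` satisfies `L ⊗ G = 0`;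
* `JD.tel_univ` : `V ⟶ L` is the initial map to an object `Z` with `Z ⊗ G = 0`.
-/

open CategoryTheory MonoidalCategory Limits Pretriangulated
open Vale.Agent.P251.T Vale.Agent.P251.S Vale.Agent.P251.H

universe v u

set_option linter.unusedSectionVars false

namespace Vale.Agent.P261.H321

variable {T : Type u} [Category.{v} T] [Preadditive T] [HasZeroObject T]
    [HasShift T ℤ] [∀ n : ℤ, (shiftFunctor T n).Additive] [Pretriangulated T]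

section milnor

variable [HasCoproducts.{0} T] {X : ℕ → T} {f : ∀ n, X n ⟶ X (n + 1)} (U : Tel f) {N : T}

include U

theorem milnor_zero (h : ∀ g : U.obj ⟶ N, g = 0) (x : ∀ n, X n ⟶ N)
    (hx : ∀ n, f n ≫ x (n + 1) = x n) (n : ℕ) : x n = 0 := by
  obtain ⟨l, hl⟩ := U.exists_desc (Z := N) x hx
  rw [← hl n, h l, comp_zero]

theorem milnor_sol (h : ∀ g : (U.obj)⟦(-1 : ℤ)⟧ ⟶ N, g = 0) (a : ∀ n, X n ⟶ N) :
    ∃ x : ∀ n, X n ⟶ N, ∀ n, x n - f n ≫ x (n + 1) = a n := by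
  have hd := inv_rot_of_distTriang _ U.dist
  have h0 : (Triangle.mk (sigmaSub f) (Sigma.desc U.ι) U.δ).invRotate.mor₁ ≫
      Sigma.desc a = 0 := h _
  obtain ⟨y, hy⟩ := Triangle.yoneda_exact₂ _ hd (Sigma.desc a) h0
  change (∐ X) ⟶ N at y
  replace hy : Sigma.desc a = sigmaSub f ≫ y := hy
  refine ⟨fun n => Sigma.ι X n ≫ y, fun n => ?_⟩
  have h1 := congrArg (Sigma.ι X n ≫ ·) hy
  simp only [Sigma.ι_desc, ι_sigmaSub_assoc, Preadditive.sub_comp, Category.assoc] at h1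
  exact h1.symm

/-- maps from the telescope of a sequence of local equivalences -/
theorem tel_bij (hs : ∀ n, Function.Surjective fun x : X (n + 1) ⟶ N => f n ≫ x)
    (hi : ∀ n (x : X (n + 1) ⟶ N), f n ≫ x = 0 → x = 0)
    (hs' : ∀ n, Function.Surjective fun x : X (n + 1) ⟶ N⟦(-1 : ℤ)⟧ => f n ≫ x) :
    Function.Bijective fun l : U.obj ⟶ N => U.ι 0 ≫ l := by
  constructor
  · intro l l' hl
    refine U.hom_ext (lim1_of_surjective (A := fun n => (X n ⟶ N⟦(-1 : ℤ)⟧)) hs') l l' ?_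
    intro n
    rw [← sub_eq_zero, ← Preadditive.comp_sub]
    have h0 : U.ι 0 ≫ (l - l') = 0 := by
      rw [Preadditive.comp_sub, sub_eq_zero]
      exact hl
    induction n with
    | zero => exact h0
    | succ n ih =>
      refine hi n _ ?_
      rw [← Category.assoc, U.w, ih]
  · intro y
    choose g hg using hs
    let x : ∀ n, X n ⟶ N := fun n => Nat.rec (motive := fun n => (X n ⟶ N)) y
      (fun n z => g n z) n
    obtain ⟨l, hl⟩ := U.exists_desc (Z := N) x fun n => hg n (x n)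
    exact ⟨l, hl 0⟩

end milnor

variable [MonoidalCategory T] [SymmetricCategory T] [TensorTriangulated T]

/-- a dual `D` of `G` and the cofibre `J` of the evaluation `G ⊗ D ⟶ 𝟙` -/
structure JD (G : T) where
  /-- the dual -/
  D : T
  pair : ExactPairing D G
  /-- the cofibre -/
  J : T
  j : 𝟙_ T ⟶ J
  δ : J ⟶ (G ⊗ D)⟦(1 : ℤ)⟧
  dist : Dist (ε_ D G) j δ

theorem exists_jd {G : T} (h : Vale.Agent.P093.N2.Dz G) : Nonempty (JD G) := by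
  obtain ⟨D, ⟨P⟩⟩ := h
  obtain ⟨J, j, δ, hD⟩ := distinguished_cocone_triangle (ε_ D G)
  exact ⟨⟨D, P, J, j, δ, hD⟩⟩

/-- the map `V ⟶ J ⊗ V` given by `j : 𝟙 ⟶ J` -/
def tj {J : T} (j : 𝟙_ T ⟶ J) (V : T) : V ⟶ J ⊗ V := (λ_ V).inv ≫ j ▷ V

/-- the sequence `V ⟶ J ⊗ V ⟶ J ⊗ (J ⊗ V) ⟶ …` -/
def seqJ (J V : T) : ℕ → T
  | 0 => V
  | k + 1 => J ⊗ seqJ J V k

@[simp] theorem seqJ_zero (J V : T) : seqJ J V 0 = V := rfl

theorem seqJ_succ (J V : T) (k : ℕ) : seqJ J V (k + 1) = (J ⊗ seqJ J V k) := rfl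

/-- the maps of the sequence -/
def mapJ {J : T} (j : 𝟙_ T ⟶ J) (V : T) (k : ℕ) : seqJ J V k ⟶ seqJ J V (k + 1) :=
  tj j (seqJ J V k)

section tj

variable {J : T} (j : 𝟙_ T ⟶ J)

theorem tj_naturality {V W : T} (f : V ⟶ W) : f ≫ tj j W = tj j V ≫ (J ◁ f) := by
  simp only [tj, Category.assoc]
  rw [leftUnitor_inv_naturality_assoc, whisker_exchange]

theorem tj_tensor (V W : T) : tj j (V ⊗ W) = (tj j V ▷ W) ≫ (α_ J V W).hom := by
  simp only [tj]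
  rw [whiskerRight_tensor]
  simp

end tj

namespace JD

variable {G : T} (P : JD G)

/-- the evaluation `(G ⊗ D) ⊗ V ⟶ V` -/
noncomputable def ev (V : T) : (G ⊗ P.D) ⊗ V ⟶ V :=
  letI := P.pair
  (ε_ P.D G) ▷ V ≫ (λ_ V).hom

/-- the basic triangle -/
theorem exists_dist (V : T) : ∃ δ : P.J ⊗ V ⟶ ((G ⊗ P.D) ⊗ V)⟦(1 : ℤ)⟧,
    Dist (P.ev V) (tj P.j V) δ := by
  let _ := P.pair
  have h := dist_whiskerRight V P.dist
  refine ⟨(P.δ ▷ V) ≫ ((tensorRight V).commShiftIso (1 : ℤ)).hom.app (G ⊗ P.D), ?_⟩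
  refine isomorphic_distinguished _ h _ (Triangle.isoMk _ _ (Iso.refl _) (λ_ V).symm
    (Iso.refl _) ?_ ?_ ?_)
  · change P.ev V ≫ (λ_ V).inv = 𝟙 _ ≫ (ε_ P.D G) ▷ V
    simp [ev]
  · change tj P.j V ≫ 𝟙 _ = (λ_ V).inv ≫ P.j ▷ V
    simp [tj]
  · change ((P.δ ▷ V) ≫ ((tensorRight V).commShiftIso (1 : ℤ)).hom.app (G ⊗ P.D)) ≫
      (𝟙 ((G ⊗ P.D) ⊗ V))⟦(1 : ℤ)⟧' = 𝟙 (P.J ⊗ V) ≫ (P.δ ▷ V) ≫
        ((tensorRight V).commShiftIso (1 : ℤ)).hom.app (G ⊗ P.D)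
    exact ((congrArg (fun z => _ ≫ z) ((shiftFunctor T (1 : ℤ)).map_id _)).trans
      (Category.comp_id _)).trans (Category.id_comp _).symm

theorem tj_self : tj P.j G = 0 := by
  let _ := P.pair
  have h1 : (G ◁ (η_ P.D G)) ≫ (α_ G P.D G).inv ≫ (ε_ P.D G) ▷ G =
      (ρ_ G).hom ≫ (λ_ G).inv := ExactPairing.coevaluation_evaluation P.D G
  have h2 : (ε_ P.D G) ≫ P.j = 0 := P.dist.zero₁₂
  have h3 : (ρ_ G).hom ≫ (λ_ G).inv ≫ P.j ▷ G = 0 := by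
    rw [← Category.assoc, ← h1, Category.assoc, Category.assoc, ← comp_whiskerRight, h2,
      MonoidalPreadditive.zero_whiskerRight, comp_zero, comp_zero]
  rw [← cancel_epi (ρ_ G).hom, comp_zero]
  exact h3

theorem tj_G (V : T) : tj P.j (G ⊗ V) = 0 := by
  rw [tj_tensor, P.tj_self, MonoidalPreadditive.zero_whiskerRight, zero_comp]

theorem tj_whiskerRight (V : T) : tj P.j V ▷ G = 0 := by
  have h1 : tj P.j (V ⊗ G) = 0 := by
    rw [← cancel_mono (P.J ◁ (β_ V G).hom), ← tj_naturality, P.tj_G, comp_zero, zero_comp]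
  rw [tj_tensor] at h1
  rw [← cancel_mono (α_ P.J V G).hom, h1, zero_comp]

variable [MonoidalClosed T] [HasCoproducts.{0} T]

/-- the telescope is killed by `G` -/
theorem tel_zero {V : T} (U : Tel (mapJ P.j V)) : IsZero (U.obj ⊗ G) := by
  refine (U.tensR G).isZero_of_proZero fun n => ⟨1, ?_⟩
  change 𝟙 _ ≫ (tj P.j (seqJ P.J V n) ▷ G) = 0
  rw [P.tj_whiskerRight, comp_zero]

theorem dual_zero {Z : T} (hZ : IsZero (Z ⊗ G)) : IsZero (P.D ⊗ Z) := by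
  let _ := P.pair
  -- `D ⊗ Z` is a retract of `(D ⊗ G) ⊗ (D ⊗ Z)`
  have h1 : ((η_ P.D G) ▷ P.D) ≫ (α_ P.D G P.D).hom ≫ (P.D ◁ (ε_ P.D G)) =
      (λ_ P.D).hom ≫ (ρ_ P.D).inv := ExactPairing.evaluation_coevaluation P.D G
  have h2 : IsZero (G ⊗ Z) := hZ.of_iso (β_ G Z)
  have h3 : IsZero ((P.D ⊗ G ⊗ P.D) ⊗ Z) := by
    have h4 : IsZero (P.D ⊗ P.D ⊗ (G ⊗ Z)) :=
      (tensorLeft P.D).map_isZero ((tensorLeft P.D).map_isZero h2)
    refine h4.of_iso (α_ P.D (G ⊗ P.D) Z ≪≫ whiskerLeftIso P.D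
      (whiskerRightIso (β_ G P.D) Z ≪≫ α_ P.D G Z))
  have h5 : 𝟙 (P.D ⊗ Z) = ((λ_ P.D).inv ≫ ((η_ P.D G) ▷ P.D) ≫ (α_ P.D G P.D).hom) ▷ Z ≫
      ((P.D ◁ (ε_ P.D G)) ≫ (ρ_ P.D).hom) ▷ Z := by
    rw [← comp_whiskerRight]
    simp only [Category.assoc]
    rw [reassoc_of% h1]
    simp
  rw [IsZero.iff_id_eq_zero, h5, h3.eq_of_tgt (_ ▷ Z) 0, zero_comp]

/-- no maps from `(G ⊗ D) ⊗ V` to objects killed by `G` -/
theorem eq_zero_of_zero {Z : T} (hZ : IsZero (Z ⊗ G)) {V : T} (f : (G ⊗ P.D) ⊗ V ⟶ Z) :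
    f = 0 := by
  let _ := P.pair
  have h1 := P.dual_zero hZ
  have e : ((G ⊗ P.D) ⊗ V ⟶ Z) ≃ (P.D ⊗ V ⟶ P.D ⊗ Z) :=
    ((α_ G P.D V).homCongr (Iso.refl Z)).trans (tensorLeftHomEquiv (P.D ⊗ V) P.D G Z)
  exact e.injective (h1.eq_of_tgt _ _)

theorem zero_shift {Z : T} (hZ : IsZero (Z ⊗ G)) (n : ℤ) : IsZero (Z⟦n⟧ ⊗ G) :=
  ((shiftFunctor T n).map_isZero hZ).of_iso (((tensorRight G).commShiftIso n).app Z)

theorem tj_surj {Z : T} (hZ : IsZero (Z ⊗ G)) (V : T) :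
    Function.Surjective fun x : P.J ⊗ V ⟶ Z => tj P.j V ≫ x := by
  intro y
  obtain ⟨δ, D⟩ := P.exists_dist V
  exact D.desc₂ y (P.eq_zero_of_zero hZ _)

theorem tj_inj {Z : T} (hZ : IsZero (Z ⊗ G)) (V : T) (x : P.J ⊗ V ⟶ Z)
    (hx : tj P.j V ≫ x = 0) : x = 0 := by
  obtain ⟨δ, D⟩ := P.exists_dist V
  obtain ⟨z, rfl⟩ := D.desc₃ x hx
  have h1 : z = 0 := by
    obtain ⟨w, hw⟩ : ∃ w : (G ⊗ P.D) ⊗ V ⟶ Z⟦(-1 : ℤ)⟧, w⟦(1 : ℤ)⟧' ≫
        ((shiftFunctorCompIsoId T (-1 : ℤ) 1 (by norm_num)).app Z).hom = z :=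
      ⟨(shiftFunctor T (1 : ℤ)).preimage
        (z ≫ ((shiftFunctorCompIsoId T (-1 : ℤ) 1 (by norm_num)).app Z).inv), by simp⟩
    rw [← hw, P.eq_zero_of_zero (zero_shift hZ (-1)) w, Functor.map_zero, zero_comp]
  rw [h1, comp_zero]

/-- **the universal property of the telescope** -/
theorem tel_univ {V : T} (U : Tel (mapJ P.j V)) {Z : T} (hZ : IsZero (Z ⊗ G)) :
    Function.Bijective fun l : U.obj ⟶ Z => (show V ⟶ U.obj from U.ι 0) ≫ l :=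
  tel_bij U (fun _ => P.tj_surj hZ _) (fun _ => P.tj_inj hZ _)
    (fun _ => P.tj_surj (zero_shift hZ (-1)) _)

end JD

end Vale.Agent.P261.H321
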