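import Vale.Agent.P261.St.Defs

/-!
# P261 (helper321): towers of cofibres of self maps
-/

open CategoryTheory MonoidalCategory

namespace Vale.Agent.P261.H321

open Vale.Agent.P251.St Vale.Agent.P251.St.SHCat

variable {T : SHCat}

/-- the `d`-fold suspension -/
abbrev susp (d : ℤ) (A : T.C) : T.C := A⟦d⟧

/-- `V` is a tower of cofibres of self maps: there are `V_0, V_1, …, V_r = V`, where `V_0` is the
cofibre of `p ^ k` on the sphere spectrum, `k > 0`, and `V_{i+1}` is the cofibre of a map
`Σ^{d_i} V_i ⟶ V_i`, `d_i > 0`; and `N` is the sum of the numbers `d_i + 1`. -/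
inductive Tower (p : ℕ) : ℕ → T.C → Prop
  | base {k : ℕ} {V : T.C} {g : Hom T.one V} {h : Hom V (sus T.one)} :
      0 < k → Dist (zmul ((p : ℤ) ^ k) (ident T.one)) g h → Tower p 0 V
  | step {N d : ℕ} {V W : T.C} {f : Hom (susp d V) V} {g : Hom V W}
      {h : Hom W (sus (susp d V))} :
      Tower p N V → 0 < d → Dist f g h → Tower p (N + (d + 1)) W

end Vale.Agent.P261.H321
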