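import Vale.Agent.P261.H321.Win
import Vale.Agent.P261.H321.TowerDef
import Vale.Agent.P251.St.ToChrom
import Vale.Agent.P251.S.Local

/-!
# P261 (helper321): the window criterion for towers
-/

open CategoryTheory MonoidalCategory Limits Pretriangulated MonObj

set_option linter.unusedSectionVars false

namespace Vale.Agent.P261.H321

open Vale.Agent.P251.St Vale.Agent.P251.St.SHCat Vale.Agent.P261.St
open Vale.Agent.P251.S (Tel exists_tel)

variable {T : SHCat} {p : ℕ}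

/-! ### finite generation -/

theorem FinGen.equiv [Fact p.Prime] {A B : Type} [AddCommGroup A] [AddCommGroup B]
    (h : FinGen p A) (e : A ≃+ B) : FinGen p B := by
  obtain ⟨m, hm⟩ := h
  let _ := m
  let mB : Module ℤ_[p] B := e.symm.module ℤ_[p]
  let f : A →ₗ[ℤ_[p]] B :=
    { toFun := e
      map_add' := e.map_add
      map_smul' := fun r x => by
        change e (r • x) = e (r • e.symm (e x))
        rw [e.symm_apply_apply] }
  exact ⟨mB, Module.Finite.of_surjective f e.surjective⟩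

/-! ### homotopy groups of local objects are derived complete -/

/-- objects on which `p` vanishes see no difference between an object and its telescope -/
theorem tel_acyclic {K A : T.C} (hK : (p : ℤ) • 𝟙 K = 0)
    (U : Tel (X := fun _ : ℕ => A) (fun _ => (p : ℤ) • 𝟙 A)) :
    Vale.Agent.P251.S.Acyclic K U.obj := by
  have h1 : ∀ B : T.C, (p : ℤ) • 𝟙 (K ⊗ B) = 0 := by
    intro B
    have h2 : (p : ℤ) • 𝟙 (K ⊗ B) = ((p : ℤ) • 𝟙 K) ▷ B := by
      have := map_zsmul ((tensorRight B).mapAddHom (X := K) (Y := K)) (p : ℤ) (𝟙 _)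
      change ((p : ℤ) • 𝟙 K) ▷ B = (p : ℤ) • (𝟙 K ▷ B) at this
      rw [this, id_whiskerRight]
    rw [h2, hK]
    exact MonoidalPreadditive.zero_whiskerRight
  refine (U.tensL K).isZero_of_proZero fun n => ⟨1, ?_⟩
  change 𝟙 _ ≫ (K ◁ ((p : ℤ) • 𝟙 A)) = 0
  have h3 : K ◁ ((p : ℤ) • 𝟙 A) = (p : ℤ) • 𝟙 (K ⊗ A) := by
    have := map_zsmul ((tensorLeft K).mapAddHom (X := A) (Y := A)) (p : ℤ) (𝟙 _)
    change K ◁ ((p : ℤ) • 𝟙 A) = (p : ℤ) • (K ◁ 𝟙 A) at this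
    rw [this, MonoidalCategory.whiskerLeft_id]
  rw [h3, h1, comp_zero]

/-- **the homotopy groups of local objects are derived complete** -/
theorem pcomp_of_local {K X : T.C} (hK : (p : ℤ) • 𝟙 K = 0) (hX : IsLocal K X) (A : T.C) :
    PComp p (A ⟶ X) := by
  have hX' : Vale.Agent.P251.S.IsLocal K X := fun W hW f => hX W ((acyclic_iff K W).2 hW) f
  obtain ⟨U⟩ := exists_tel (X := fun _ : ℕ => A) (fun _ => (p : ℤ) • 𝟙 A)
  have hU := tel_acyclic hK U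
  constructor
  · intro x hx
    refine hX'.eq_zero_of_compat U hU x fun n => ?_
    rw [hx n]
    simp
  · intro b
    obtain ⟨x, hx⟩ := hX'.exists_solution U hU b
    refine ⟨x, fun n => ?_⟩
    rw [← hx n]
    simp

/-! ### towers -/

/-- the sphere and the cofibre of `p ^ k` -/
theorem finite_moore [Fact p.Prime] {k : ℕ} {X V : T.C} {g : T.one ⟶ V}
    {h : V ⟶ (T.one)⟦(1 : ℤ)⟧}
    (hT : Triangle.mk (((p : ℤ) ^ k) • 𝟙 T.one) g h ∈ distTriang T.C) {s : ℤ}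
    (h0 : FinGen p (T.one ⟶ X⟦s⟧)) (h1 : FinGen p (T.one ⟶ X⟦s - 1⟧)) :
    Finite (V ⟶ X⟦s⟧) := by
  have h1' : FinGen p ((T.one)⟦(1 : ℤ)⟧ ⟶ X⟦s⟧) :=
    FinGen.equiv h1 (shiftHom T.one X 1 s (s - 1) (by omega)).symm
  obtain ⟨m0, f0⟩ := h0
  obtain ⟨m1, f1⟩ := h1'
  have r1 : Finite (Preadditive.leftComp (X⟦s⟧) h).range := by
    refine @finite_range p _ _ _ m1 f1 _ _ k _ fun a => ?_
    have h2 : h ≫ (((p : ℤ) ^ k) • 𝟙 T.one)⟦(1 : ℤ)⟧' = 0 := comp_distTriang_mor_zero₃₁ _ hT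
    rw [Functor.map_zsmul, CategoryTheory.Functor.map_id] at h2
    change h ≫ (((p : ℤ) ^ k) • a) = 0
    have h3 : (((p : ℤ) ^ k) • a) = (((p : ℤ) ^ k) • 𝟙 _) ≫ a := by simp
    rw [h3, ← Category.assoc, h2, zero_comp]
  have r2 : Finite (Preadditive.leftComp (X⟦s⟧) g).range := by
    have h2 := @finite_torsion p _ _ _ m0 f0 k
    refine Finite.of_injective (fun y : (Preadditive.leftComp (X⟦s⟧) g).range =>
      (⟨y.1, ?_⟩ : {a : T.one ⟶ X⟦s⟧ // ((p : ℤ) ^ k) • a = 0})) ?_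
    · obtain ⟨_, z, rfl⟩ := y
      have h3 : (((p : ℤ) ^ k) • 𝟙 T.one) ≫ g = 0 := comp_distTriang_mor_zero₁₂ _ hT
      change ((p : ℤ) ^ k) • (g ≫ z) = 0
      have h4 : ((p : ℤ) ^ k) • (g ≫ z) = ((((p : ℤ) ^ k) • 𝟙 T.one) ≫ g) ≫ z := by simp
      rw [h4, h3, zero_comp]
    · intro a b hab
      exact Subtype.ext (congrArg (fun c => c.1) hab)
  refine finite_of_exact (Preadditive.leftComp (X⟦s⟧) h) (Preadditive.leftComp (X⟦s⟧) g)
    fun y hy => ?_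
  obtain ⟨z, hz⟩ := Triangle.yoneda_exact₃ _ hT y hy
  exact ⟨z, hz.symm⟩

/-- from the cofibre of `p ^ k` to the sphere -/
theorem finGen_of_moore [Fact p.Prime] {k : ℕ} (hk : 0 < k) {X V : T.C} {g : T.one ⟶ V}
    {h : V ⟶ (T.one)⟦(1 : ℤ)⟧}
    (hT : Triangle.mk (((p : ℤ) ^ k) • 𝟙 T.one) g h ∈ distTriang T.C) {s : ℤ}
    (hc : PComp p (T.one ⟶ X⟦s⟧)) (hf : Finite (V ⟶ X⟦s + 1⟧)) :
    FinGen p (T.one ⟶ X⟦s⟧) := by
  have hT' := inv_rot_of_distTriang _ hT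
  let q : V⟦(-1 : ℤ)⟧ ⟶ T.one :=
    (Triangle.mk (((p : ℤ) ^ k) • 𝟙 T.one) g h).invRotate.mor₁
  have hf' : Finite (V⟦(-1 : ℤ)⟧ ⟶ X⟦s⟧) :=
    Finite.of_equiv _ (shiftHom V X (-1) s (s + 1) (by omega)).symm.toEquiv
  obtain ⟨r, e, he⟩ := exists_reps (p := p) hk (Preadditive.leftComp (X⟦s⟧) q) fun a ha => by
    obtain ⟨z, hz⟩ := Triangle.yoneda_exact₂ _ hT' a ha
    change T.one ⟶ X⟦s⟧ at z
    refine ⟨z, ?_⟩
    have hz' : a = (((p : ℤ) ^ k) • 𝟙 T.one) ≫ z := hz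
    rw [hz']
    simp
  exact ⟨hc.module, @PComp.finite_of_reps p _ _ _ hc hc.module r e he⟩

/-- windows in towers -/
theorem Tower.window {N : ℕ} {V : T.C} (H : Tower p N V) (X : T.C) :
    ∀ L : ℤ, -1 ≤ L → WP X V L → ∃ (k : ℕ) (V₀ : T.C) (g : T.one ⟶ V₀)
      (h : V₀ ⟶ (T.one)⟦(1 : ℤ)⟧), 0 < k ∧
        Triangle.mk (((p : ℤ) ^ k) • 𝟙 T.one) g h ∈ distTriang T.C ∧ WP X V₀ (L + N) := by
  induction H with
  | base hk hT => exact fun L _ hW => ⟨_, _, _, _, hk, hT, by simpa using hW⟩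
  | @step N d V W f g h hV hd hT ih =>
    intro L hL hW
    obtain ⟨k, V₀, g₀, h₀, hk, hT₀, hW₀⟩ := ih (L + (d + 1)) (by omega)
      (hW.step (by exact_mod_cast hd) hL hT)
    refine ⟨k, V₀, g₀, h₀, hk, hT₀, ?_⟩
    have e : L + ((N + (d + 1) : ℕ) : ℤ) = L + (d + 1) + N := by push_cast; ring
    rw [e]
    exact hW₀

/-- **The window criterion for towers.** -/
theorem window_criterion [Fact p.Prime] {K X : T.C} (hK : (p : ℤ) • 𝟙 K = 0)
    (hX : IsLocal K X) {N : ℕ} {V : T.C} (H : Tower p N V) (hV : Acyclic K V) (a : ℤ)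
    (ha : ∀ t, a ≤ t → t < a + N → FinGen p (Pi t X)) (t : ℤ) : FinGen p (Pi t X) := by
  have h0 : ∀ (s : ℤ) (f : V ⟶ X⟦s⟧), f = 0 := by
    intro s f
    let e := shiftHomZ V X (-s) s (by omega)
    have h1 : e.symm f = 0 := by
      refine hX _ ?_ _
      rw [acyclic_iff] at hV ⊢
      exact Vale.Agent.P251.S.acyclic_shift hV (-s)
    rw [← e.apply_symm_apply f, h1, map_zero]
  obtain ⟨k, V₀, g, h, hk, hT, hW⟩ := Tower.window H X (-1) le_rfl (wp_of_zero h0)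
  have e : ∀ s t : ℤ, s + t = 0 → (Pi t X ≃+ (T.one ⟶ X⟦s⟧)) := fun s t h =>
    shiftHomZ T.one X t s h
  have h1 : ∀ s : ℤ, Finite (V₀ ⟶ X⟦s⟧) := by
    refine hW (2 - a - N) fun s hs1 hs2 => ?_
    refine finite_moore hT ?_ ?_
    · exact FinGen.equiv (ha (-s) (by omega) (by omega)) (e _ _ (by omega))
    · exact FinGen.equiv (ha (1 - s) (by omega) (by omega)) (e _ _ (by omega))
  have h2 : PComp p (T.one ⟶ X⟦-t⟧) :=
    (pcomp_of_local hK hX ((𝟙_ T.C)⟦t⟧)).equiv (e (-t) t (by omega))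
  exact FinGen.equiv (finGen_of_moore hk hT h2 (h1 _)) (e (-t) t (by omega)).symm

end Vale.Agent.P261.H321
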