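import Vale.Agent.P261.H321.Acyc
import Vale.Agent.P261.H321.Main

/-!
# P261 (helper321): Smith-Toda towers are towers
-/

open CategoryTheory MonoidalCategory Limits Pretriangulated MonObj

set_option linter.unusedSectionVars false

universe v u

namespace Vale.Agent.P261.H321

open Vale.Agent.P251.St Vale.Agent.P251.St.SHCat Vale.Agent.P261.St
open Vale.Agent.P251.T Vale.Agent.P251.M Vale.Agent.P251.F
  Vale.Agent.P257.H314
open Vale.Agent.P251.M.EvenSpheres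
open Vale.Agent.P251.S (sphTensor)

/-- the previous stage -/
theorem stow_pred {T : Type u} [Category.{v} T] [Preadditive T] [HasZeroObject T]
    [HasShift T ℤ] [∀ n : ℤ, (shiftFunctor T n).Additive] [Pretriangulated T]
    [MonoidalCategory T] [SymmetricCategory T] [TensorTriangulated T] [HasCoproducts.{0} T]
    {D : Vale.Agent.P251.I.MUData T} {p m : ℕ} {V : T} {i : 𝟙_ T ⟶ V} (H : STow D p m i) :
    ∀ h, m = h + 1 → 1 ≤ h → ∃ (V' : T) (i' : 𝟙_ T ⟶ V'), STow D p h i' := by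
  induction H with
  | one hC =>
    intro h h1 h2
    omega
  | @succ h V V' i H x hx f hf j δ hΔ ih =>
    intro h' h1 _
    obtain rfl : h = h' := by omega
    exact ⟨V, i, H⟩

variable {T : SHCat} {D : Vale.Agent.P251.I.MUData T.C} {p : ℕ}

/-- Smith-Toda towers are towers. -/
theorem tower_of_stow [Fact p.Prime] {h : ℕ} {V : T.C} {i : 𝟙_ T.C ⟶ V} (H : STow D p h i) :
    ∃ m, h = m + 1 ∧ ∃ N : ℕ, (N : ℤ) = ∑ j ∈ Finset.Icc 1 m, (2 * (p : ℤ) ^ j - 1) ∧
      Tower p N V := by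
  induction H with
  | @one C iC δ hC =>
    refine ⟨0, rfl, 0, by simp, ?_⟩
    refine Tower.base (k := 1) (g := iC) (h := δ) one_pos ?_
    rw [pow_one]
    exact hC
  | @succ h V V' i H x hx f hf j δ hΔ ih =>
    obtain ⟨m, rfl, N, hN, hT⟩ := ih
    refine ⟨m + 1, rfl, ?_⟩
    have hp : 1 < p := (Fact.out : p.Prime).one_lt
    have hpow : 1 < p ^ (m + 1) := Nat.one_lt_pow (by omega) hp
    obtain ⟨d, hd⟩ : ∃ d : ℕ, d = 2 * (p ^ (m + 1) - 1) := ⟨_, rfl⟩
    have hdz : (d : ℤ) = 2 * ((p : ℤ) ^ (m + 1) - 1) := by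
      rw [hd]
      push_cast [Nat.cast_sub hpow.le]
      ring
    obtain ⟨ε⟩ : Nonempty (V⟦(d : ℤ)⟧ ≅ (stdEven T.C).S ((p ^ (m + 1) : ℤ) - 1) ⊗ V) := by
      rw [hdz]
      exact ⟨(sphTensor _ V).symm ≪≫ whiskerRightIso (sI T.C _).symm V⟩
    refine ⟨N + (d + 1), ?_, ?_⟩
    · rw [Finset.sum_Icc_succ_top (by omega), ← hN]
      push_cast
      rw [hdz]
      ring
    · refine Tower.step (f := ε.hom ≫ f) (g := j) (h := δ ≫ ε.inv⟦(1 : ℤ)⟧') hT (by omega) ?_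
      refine isomorphic_distinguished _ hΔ _ ?_
      refine Triangle.isoMk _ _ ε (Iso.refl _) (Iso.refl _) ?_ ?_ ?_
      · change (ε.hom ≫ f) ≫ 𝟙 _ = ε.hom ≫ f
        simp
      · change j ≫ 𝟙 _ = 𝟙 _ ≫ j
        simp
      · change (δ ≫ ε.inv⟦(1 : ℤ)⟧') ≫ ε.hom⟦(1 : ℤ)⟧' = 𝟙 _ ≫ δ
        rw [Category.assoc, ← Functor.map_comp, Iso.inv_hom_id, CategoryTheory.Functor.map_id,
          Category.comp_id, Category.id_comp]

/-- `p = 0` on a ring spectrum of characteristic `p` -/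
theorem kills_of_char {p : ℤ} {K : T.C} [MonObj K] (h : p • η[K] = 0) : p • 𝟙 K = 0 := by
  have h1 : 𝟙 K = (λ_ K).inv ≫ (η[K] ▷ K) ≫ μ[K] := by
    rw [MonObj.one_mul, Iso.inv_hom_id]
  have h2 : p • (η[K] ▷ K) = (p • η[K]) ▷ K := by
    have := map_zsmul ((tensorRight K).mapAddHom (X := 𝟙_ T.C) (Y := K)) p η[K]
    exact this.symm
  rw [h1, ← Preadditive.comp_zsmul, ← Preadditive.zsmul_comp, h2, h]
  simp

end Vale.Agent.P261.H321
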