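import Vale.Agent.P261.H321.CellMain
import Vale.Agent.P261.H321.Stow
import Vale.Agent.P241.Final.Low2
import Vale.Agent.P241.EX.Exists

/-!
# P261 (helper321): finite torsion complexes which are acyclic for a Morava `K`-theory
-/

open CategoryTheory MonoidalCategory Limits Pretriangulated MonObj

set_option linter.unusedSectionVars false

namespace Vale.Agent.P261.H321

open Vale.Agent.P251 Vale.Agent.P251.St Vale.Agent.P251.St.SHCat Vale.Agent.P261.St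
  Vale.Agent.P257.H314 Vale.Agent.P257.H702 Vale.Agent.P241.St

variable {T : SHCat} {p : ℕ}

/-- `p` is zero on a Morava `K`-theory of positive height. -/
theorem char_of_moravaK (S : Susp T) {K : RingA T} {n : ℕ} (hn : 1 ≤ n)
    (hK : IsMoravaK S p n K) : (p : ℤ) • 𝟙 K.obj = 0 := by
  unfold IsMoravaK at hK
  rw [if_neg (by omega)] at hK
  exact kills_of_char hK.1.char

/-- a complex on which `p` is invertible is acyclic for every object of characteristic `p` -/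
theorem acyclic_of_div {K F : T.C} (hK : (p : ℤ) • 𝟙 K = 0) {r : F ⟶ F}
    (hr : 𝟙 F = (p : ℤ) • r) : Acyclic K F := by
  have h1 : 𝟙 (K ⊗ F) = ((p : ℤ) • 𝟙 K) ⊗ₘ r := by
    have h2 : ((p : ℤ) • 𝟙 K) ⊗ₘ r = (p : ℤ) • (𝟙 K ⊗ₘ r) := by
      rw [MonoidalCategory.tensorHom_def, MonoidalCategory.tensorHom_def]
      have h3 : ((p : ℤ) • 𝟙 K) ▷ F = (p : ℤ) • (𝟙 K ▷ F) :=
        map_zsmul ((tensorRight F).mapAddHom (X := K) (Y := K)) (p : ℤ) (𝟙 _)
      rw [h3, Preadditive.zsmul_comp]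
    have h4 : 𝟙 K ⊗ₘ ((p : ℤ) • r) = (p : ℤ) • (𝟙 K ⊗ₘ r) := by
      rw [id_tensorHom, id_tensorHom]
      exact map_zsmul ((tensorLeft K).mapAddHom (X := F) (Y := F)) (p : ℤ) r
    rw [h2, ← h4, ← hr, id_tensorHom_id]
  change 𝟙 (K ⊗ F) = 0
  rw [h1, hK]
  exact MonoidalPreadditive.zero_tensor _

/-- **Finite torsion complexes acyclic for `K`**, a Morava `K`-theory of height `n`. -/
theorem exists_cells (S : Susp T) [hp : Fact p.Prime] {n : ℕ} {K : RingA T}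
    (hK : IsMoravaK S p n K) :
    ∃ (b e : ℤ) (k : ℕ) (G : T.C), Cells b e G ∧ Acyclic K.obj G ∧
      zmul ((p : ℤ) ^ k) (ident G) = 0 ∧ ident G ≠ 0 := by
  obtain ⟨K₀, hK₀⟩ := P241.EX.exists_moravaK S p
  let K' : ℕ → RingA T := Function.update K₀ n K
  have hK' : ∀ i, IsMoravaK S p i (K' i) := by
    intro i
    by_cases hi : i = n
    · subst hi
      change IsMoravaK S p i (Function.update K₀ i K i)
      rw [Function.update_self]
      exact hK
    · change IsMoravaK S p i (Function.update K₀ n K i)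
      rw [Function.update_of_ne hi]
      exact hK₀ i
  obtain ⟨Y, hY, h1, h2⟩ := P241.H435.typeStmt_of_young (P241.Final.youngStmt S p) K' hK' (n + 1)
  have h1' : Acyclic K.obj (S.obj Y) := by
    have h3 := h1 n (Nat.lt_succ_self n)
    have h4 : K' n = K := Function.update_self _ _ _
    rwa [h4] at h3
  obtain ⟨b, e, hF⟩ := finCell_of_fc S.toSpaceFunctor (fc_toLC hY)
  have hF' : FinCell T.C (Set.Icc b e) (S.obj Y) := hF (fc_toLC hY)
  obtain ⟨M, g, h, hT⟩ := distinguished_cocone_triangle ((p : ℤ) • 𝟙 (𝟙_ T.C))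
  obtain ⟨l, hl⟩ := KillsPow.one hT
  have hM : FinCell T.C (Set.Icc 0 1) M := by
    refine FinCell.ext₃ (S := {0}) _ hT (FinCell.unit (Set.mem_Icc.2 ⟨le_rfl, zero_le_one⟩))
      (FinCell.unit rfl) fun d hd => ?_
    obtain rfl : d = 0 := hd
    exact Set.mem_Icc.2 ⟨zero_le_one, le_rfl⟩
  refine ⟨b, e + 1, l, S.obj Y ⊗ M, cells_of_finCell (hF'.tensor hM fun d hd d' hd' => ?_), ?_,
    hl.tensor _, fun h0 => h2 ?_⟩
  · exact Set.mem_Icc.2 ⟨by have := hd.1; have := hd'.1; omega,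
      by have := hd.2; have := hd'.2; omega⟩
  · rw [acyclic_iff] at h1' ⊢
    have h5 : IsZero ((K.obj ⊗ S.obj Y) ⊗ M) := (tensorRight M).map_isZero h1'
    exact h5.of_iso (α_ K.obj (S.obj Y) M).symm
  · -- `p` is invertible on `S.obj Y`
    have hchar := char_of_moravaK (p := p) S (Nat.le_add_left 1 n) (hK' (n + 1))
    obtain ⟨r, hr⟩ : ∃ r : S.obj Y ⟶ S.obj Y, 𝟙 (S.obj Y) = (p : ℤ) • r := by
      have hd := T.tensor.distinguished (S.obj Y) _ hT
      have h6 : (ρ_ (S.obj Y)).inv ≫ (S.obj Y ◁ g) = 0 := by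
        have h7 : 𝟙 (S.obj Y ⊗ M) = 0 := h0
        rw [← Category.comp_id ((ρ_ (S.obj Y)).inv ≫ (S.obj Y ◁ g)), h7, comp_zero]
      obtain ⟨s, hs⟩ := Triangle.coyoneda_exact₂ _ hd (ρ_ (S.obj Y)).inv h6
      change S.obj Y ⟶ S.obj Y ⊗ 𝟙_ T.C at s
      have hs' : (ρ_ (S.obj Y)).inv = s ≫ (S.obj Y ◁ ((p : ℤ) • 𝟙 (𝟙_ T.C))) := hs
      have h8 : S.obj Y ◁ ((p : ℤ) • 𝟙 (𝟙_ T.C)) = (p : ℤ) • 𝟙 (S.obj Y ⊗ 𝟙_ T.C) := by
        have := map_zsmul ((tensorLeft (S.obj Y)).mapAddHom (X := 𝟙_ T.C) (Y := 𝟙_ T.C))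
          (p : ℤ) (𝟙 _)
        change S.obj Y ◁ ((p : ℤ) • 𝟙 (𝟙_ T.C)) = (p : ℤ) • (S.obj Y ◁ 𝟙 (𝟙_ T.C)) at this
        rw [this, MonoidalCategory.whiskerLeft_id]
      refine ⟨s ≫ (ρ_ (S.obj Y)).hom, ?_⟩
      rw [h8] at hs'
      rw [← Iso.inv_hom_id (ρ_ (S.obj Y)), hs']
      simp
    exact acyclic_of_div hchar hr

end Vale.Agent.P261.H321
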